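import Claimed.Agent.R314.Defs
import Claimed.Agent.R315.Gs.Aap

/-!
# Row 314, block B, package PO (architect helper246): the glue

`drift_of_parts : PogUnifStmt → PogVarStmt → (exit contract of block B)`.

* `PogUnifStmt`  : Poincare inequality with a potential on a closed connected manifold, with a constant that is UNIFORM over all metrics
  `g/2 ≤ g' ≤ 2g` (prover: helper209, `B/Po.lean`, `B/PoUnif.lean`).
* `PogVarStmt` : the variation `g' = g - t η Ric`, everything measured with `g'` itself (chief helper39, `B/VarD.lean`).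
* `pog_drift_of_gap` : a gap of `4|dφ|² + scal φ²` gives a drift function (`gs_aap_drift` of row 315).
-/

set_option autoImplicit false
open scoped ContDiff Topology
open Set MeasureTheory Claims.C0499 Claimed.Agent.R315

namespace Claimed.Agent.R314

/-- **PO-UNIF** (statement; prover helper209): the Poincare constant is uniform over all metrics `g/2 ≤ g' ≤ 2g`. -/
def PogUnifStmt : Prop :=
  ∀ {n N : ℕ} {M : Set (E N)} {g : Ten (E N)}, IsCompact M → IsPreconnected M → IsMfd n M →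
    IsMetricOn n M g → ∀ {f : E N → ℝ}, SmoothAlong n M f → (∀ x ∈ M, 0 ≤ f x) →
    ∀ {x₀ : E N}, x₀ ∈ M → 0 < f x₀ →
    ∃ c : ℝ, 0 < c ∧ ∀ g' : Ten (E N), IsMetricOn n M g' → MetLE n M ((1 / 2 : ℝ) • g) g' →
      MetLE n M g' ((2 : ℝ) • g) → GsGap n M g' (fun _ => 0) 1 f c

/-- **VAR** (statement of the exit; chief helper39). -/
def PogVarStmt : Prop :=
  ∀ {n N : ℕ} {M : Set (E N)} {g : Ten (E N)}, IsCompact M → IsMfd n M → IsMetricOn n M g →
    (∀ x ∈ M, 0 ≤ scal n M g x) → ¬ RicFlat n M g →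
    ∃ (f : E N → ℝ) (C t0 : ℝ) (x0 : E N), 0 < t0 ∧ 0 ≤ C ∧ ContinuousOn f M ∧
      (∀ x ∈ M, 0 ≤ f x) ∧ x0 ∈ M ∧ 0 < f x0 ∧ ∀ t : ℝ, 0 < t → t ≤ t0 →
        ∃ g' : Ten (E N), IsMetricOn n M g' ∧ MetLE n M ((1 / 2 : ℝ) • g) g' ∧
          MetLE n M g' ((2 : ℝ) • g) ∧ ∀ φ : E N → ℝ, IsTestOn n M φ →
            gsB n M g' (fun _ => 0) 3 (fun x => t * f x - C * t ^ 2) φ φ ≤
              gsB n M g' (fun _ => 0) 4 (scal n M g') φ φ

variable {n N : ℕ} {M : Set (E N)} {g : Ten (E N)}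

theorem pog_geo (hM : IsMfd n M) (hg : IsMetricOn n M g) : GsGeo n M g (fun _ => 0) :=
  { mfd := hM, met := hg, drift := gs_sm_const 0, isVol := if_isVol_vol hM g }

/-- integrability of the integrand of `gsB` for a merely continuous potential. -/
theorem pog_B_integrable (hM : IsMfd n M) (hg : IsMetricOn n M g) {W φ : E N → ℝ} (C : ℝ)
    (hW : ContinuousOn W M) (hφ : IsTestOn n M φ) :
    Integrable (fun x => C * gradIp n M g φ φ x + W x * (φ x * φ x))
      (wvol n M g (fun _ => 0)) := by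
  have hG := pog_geo hM hg
  have hφc : ContinuousOn φ M := if_smoothAlong_continuousOn hM hφ.1
  have h1 : ContinuousOn (gradIp n M g φ φ) M :=
    if_smoothAlong_continuousOn hM (if_gradIp_smoothAlong hg hφ.1 hφ.1)
  exact gs_integrable hG ((continuousOn_const.mul h1).add (hW.mul (hφc.mul hφc)))
    (gs_B_cs hG hφ.1 hφ)

/-- linearity of `gsB` in `(C, W)`. -/
theorem pog_B_comb (hM : IsMfd n M) (hg : IsMetricOn n M g) {W W' φ : E N → ℝ} (C C' a : ℝ)
    (hW : ContinuousOn W M) (hW' : ContinuousOn W' M) (hφ : IsTestOn n M φ) :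
    gsB n M g (fun _ => 0) (C + a * C') (fun x => W x + a * W' x) φ φ =
      gsB n M g (fun _ => 0) C W φ φ + a * gsB n M g (fun _ => 0) C' W' φ φ := by
  unfold gsB
  rw [← integral_const_mul, ← integral_add (pog_B_integrable hM hg C hW hφ)
    ((pog_B_integrable hM hg C' hW' hφ).const_mul a)]
  refine integral_congr_ae (Filter.Eventually.of_forall fun x => ?_)
  show (C + a * C') * gradIp n M g φ φ x + (W x + a * W' x) * (φ x * φ x) = _
  ring

/-- `gsB 0 (const)` is a multiple of `gsN`. -/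
theorem pog_B_const (b : ℝ) (φ : E N → ℝ) :
    gsB n M g (fun _ => 0) 0 (fun _ => b) φ φ = b * gsN n M g (fun _ => 0) φ φ := by
  unfold gsB gsN
  rw [← integral_const_mul]
  refine integral_congr_ae (Filter.Eventually.of_forall fun x => ?_)
  show 0 * gradIp n M g φ φ x + b * (φ x * φ x) = _
  ring

/-- monotonicity of `gsB` in `(C, W)`. -/
theorem pog_B_mono (hM : IsMfd n M) (hg : IsMetricOn n M g) {W W' φ : E N → ℝ} {C C' : ℝ}
    (hC : C ≤ C') (hW : ContinuousOn W M) (hW' : ContinuousOn W' M)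
    (hWW : ∀ x ∈ M, W x ≤ W' x) (hφ : IsTestOn n M φ) :
    gsB n M g (fun _ => 0) C W φ φ ≤ gsB n M g (fun _ => 0) C' W' φ φ := by
  unfold gsB
  refine integral_mono_ae (pog_B_integrable hM hg C hW hφ) (pog_B_integrable hM hg C' hW' hφ) ?_
  filter_upwards [gs_ae_mem (pog_geo hM hg)] with x hx
  have h1 : 0 ≤ gradIp n M g φ φ x := gs_sq_nonneg hM hg hφ.1 hx
  have h2 : 0 ≤ φ x * φ x := mul_self_nonneg _
  have h3 := mul_le_mul_of_nonneg_right hC h1
  have h4 := mul_le_mul_of_nonneg_right (hWW x hx) h2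
  show C * gradIp n M g φ φ x + W x * (φ x * φ x) ≤ C' * gradIp n M g φ φ x + W' x * (φ x * φ x)
  linarith

/-- `gsB` only depends on the values of the potential on `M`. -/
theorem pog_B_congr (hM : IsMfd n M) (hg : IsMetricOn n M g) {W W' : E N → ℝ} (C : ℝ)
    (φ : E N → ℝ) (hWW : ∀ x ∈ M, W x = W' x) :
    gsB n M g (fun _ => 0) C W φ φ = gsB n M g (fun _ => 0) C W' φ φ := by
  unfold gsB
  refine integral_congr_ae ?_
  filter_upwards [gs_ae_mem (pog_geo hM hg)] with x hx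
  rw [hWW x hx]

/-- **a gap of `4|dφ|² + scal φ²` gives a drift function.** -/
theorem pog_drift_of_gap (hM : IsMfd n M) (hg : IsMetricOn n M g) {γ : ℝ} (hγ : 0 < γ)
    (hgap : ∀ φ : E N → ℝ, IsTestOn n M φ →
      γ * gsN n M g (fun _ => 0) φ φ ≤ gsB n M g (fun _ => 0) 4 (scal n M g) φ φ) :
    ∃ w : E N → ℝ, SmoothAlong n M w ∧ ∀ x ∈ M, γ / 2 ≤ Dsc n M g w x := by
  have hG := pog_geo hM hg
  have hsc : ContinuousOn (scal n M g) M :=
    if_smoothAlong_continuousOn hM (if_scal_smoothAlong hg)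
  have hgap' : GsGap n M g (fun _ => 0) 4
      (fun x => Dsc n M g (fun _ => 0) x - (fun _ => γ / 2) x) (γ / 2) := by
    intro φ hφ
    have e1 : gsB n M g (fun _ => 0) 4
        (fun x => Dsc n M g (fun _ => 0) x - (fun _ => γ / 2) x) φ φ =
        gsB n M g (fun _ => 0) (4 + (-1) * 0) (fun x => scal n M g x + (-1) * (γ / 2)) φ φ := by
      have e0 : (4 : ℝ) + (-1) * 0 = 4 := by ring
      rw [e0]
      refine pog_B_congr hM hg 4 φ fun x hx => ?_
      show Dsc n M g (fun _ => 0) x - γ / 2 = _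
      rw [gs_Dsc_zero hM hg hx]
      ring
    rw [e1, pog_B_comb hM hg 4 0 (-1) hsc continuousOn_const hφ, pog_B_const]
    have := hgap φ hφ
    linarith
  obtain ⟨z, hz, hpos, hb⟩ := gs_aap_drift (Vs := fun _ => γ / 2) hG (gs_sm_const _)
    (by norm_num : (0 : ℝ) < 4) le_rfl (by positivity : (0 : ℝ) < γ / 2) hgap'
  exact ⟨fun y => 0 - 4 / 2 * Real.log (z y),
    gs_sm_sub (gs_sm_const 0) (gs_sm_smul _ (gs_sm_log hz hpos)), fun x hx => (hb x hx).le⟩

/-- a continuous nonnegative function which is positive at `x0` has a smooth nonnegative minorant which is positive at `x0`. -/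
theorem pog_minorant {f : E N → ℝ} (hf : ContinuousOn f M) (hf0 : ∀ x ∈ M, 0 ≤ f x) {x0 : E N}
    (hx0 : x0 ∈ M) (hpos : 0 < f x0) :
    ∃ f' : E N → ℝ, SmoothAlong n M f' ∧ (∀ x ∈ M, 0 ≤ f' x) ∧ (∀ x ∈ M, f' x ≤ f x) ∧
      0 < f' x0 := by
  have h1 : ∀ᶠ x in 𝓝[M] x0, f x0 / 2 < f x :=
    (hf x0 hx0).eventually (lt_mem_nhds (by linarith))
  obtain ⟨r, hr, hball⟩ := Metric.mem_nhdsWithin_iff.1 h1
  let b : ContDiffBump x0 := ⟨r / 2, r, by positivity, by linarith⟩
  refine ⟨fun x => f x0 / 2 * b x, ?_, fun x _ => ?_, fun x hx => ?_, ?_⟩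
  · exact if_smoothAlong_of_contDiff (contDiff_const.mul b.contDiff)
  · exact mul_nonneg (by positivity) b.nonneg
  · by_cases hxb : x ∈ Metric.ball x0 r
    · have h2 : f x0 / 2 < f x := hball ⟨hxb, hx⟩
      have h3 : b x ≤ 1 := b.le_one
      have h4 : f x0 / 2 * b x ≤ f x0 / 2 * 1 := mul_le_mul_of_nonneg_left h3 (by positivity)
      show f x0 / 2 * b x ≤ f x
      linarith
    · have h2 : b x = 0 := b.zero_of_le_dist (by
        rw [Metric.mem_ball, not_lt] at hxb
        exact hxb)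
      show f x0 / 2 * b x ≤ f x
      rw [h2, mul_zero]
      exact hf0 x hx
  · have h2 : b x0 = 1 := b.one_of_mem_closedBall (Metric.mem_closedBall_self (by positivity))
    show 0 < f x0 / 2 * b x0
    rw [h2]
    positivity

/-- **exit contract of block B from `PogUnifStmt` and `PogVarStmt`.** -/
theorem drift_of_parts (hPO : PogUnifStmt) (hVAR : PogVarStmt) (hc : IsCompact M) (hconn : IsConnected M)
    (hM : IsMfd n M) (hg : IsMetricOn n M g) (hs : ∀ x ∈ M, 0 ≤ scal n M g x)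
    (hR : ¬ RicFlat n M g) :
    ∃ (g' : Ten (E N)) (w : E N → ℝ) (c : ℝ), IsMetricOn n M g' ∧ SmoothAlong n M w ∧ 0 < c ∧
      ∀ x ∈ M, c ≤ Dsc n M g' w x := by
  obtain ⟨f, C, t0, x0, ht0, hC, hf, hf0, hx0, hfx0, hV⟩ := hVAR hc hM hg hs hR
  obtain ⟨f', hfs', hf0', hff', hfx0'⟩ := pog_minorant (n := n) hf hf0 hx0 hfx0
  obtain ⟨c, hc0, hP⟩ := hPO hc hconn.isPreconnected hM hg hfs' hf0' hx0 hfx0'
  have hf' : ContinuousOn f' M := if_smoothAlong_continuousOn hM hfs'
  -- the choice of `t`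
  obtain ⟨t, ht, htt0, ht1, htC⟩ : ∃ t : ℝ, 0 < t ∧ t ≤ t0 ∧ t ≤ 1 ∧ C * t ≤ c / 2 := by
    have hq : 0 < c / (2 * (C + 1)) := by positivity
    have h2 : 0 < min (min t0 1) (c / (2 * (C + 1))) := lt_min (lt_min ht0 one_pos) hq
    refine ⟨min (min t0 1) (c / (2 * (C + 1))), h2, ?_, ?_, ?_⟩
    · exact (min_le_left _ _).trans (min_le_left _ _)
    · exact (min_le_left _ _).trans (min_le_right _ _)
    · have h1 : min (min t0 1) (c / (2 * (C + 1))) ≤ c / (2 * (C + 1)) := min_le_right _ _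
      have h3 : C * min (min t0 1) (c / (2 * (C + 1))) ≤ (C + 1) * (c / (2 * (C + 1))) :=
        mul_le_mul (by linarith) h1 h2.le (by positivity)
      have h6 : (C + 1) * (c / (2 * (C + 1))) = c / 2 := by
        field_simp
      linarith
  obtain ⟨g', hgt, hle1, hle2, hin⟩ := hV t ht htt0
  have hγ : 0 < t * c / 2 := by positivity
  obtain ⟨w, hw, hb⟩ := pog_drift_of_gap hM hgt hγ fun φ hφ => by
    refine le_trans ?_ (hin φ hφ)
    have h1 := (hP g' hgt hle1 hle2 φ hφ).trans (pog_B_mono hM hgt le_rfl hf' hf hff' hφ)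
    have hN : 0 ≤ gsN n M g' (fun _ => 0) φ φ := gs_N_nonneg φ
    -- `gsB 3 (t f - C t²) ≥ gsB t (t f - C t²) = t gsB 1 f - C t² gsN`
    have h2 : gsB n M g' (fun _ => 0) (0 + t * 1)
        (fun x => (fun _ => -(C * t ^ 2)) x + t * f x) φ φ ≤
        gsB n M g' (fun _ => 0) 3 (fun x => t * f x - C * t ^ 2) φ φ := by
      refine pog_B_mono hM hgt (by linarith) (continuousOn_const.add (continuousOn_const.mul hf))
        ((continuousOn_const.mul hf).sub continuousOn_const) (fun x _ => ?_) hφ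
      show -(C * t ^ 2) + t * f x ≤ t * f x - C * t ^ 2
      linarith
    rw [pog_B_comb hM hgt 0 1 t continuousOn_const hf hφ, pog_B_const] at h2
    refine le_trans ?_ h2
    have h3 : t * (c * gsN n M g' (fun _ => 0) φ φ) ≤ t * gsB n M g' (fun _ => 0) 1 f φ φ :=
      mul_le_mul_of_nonneg_left h1 ht.le
    have h4 : C * t ^ 2 * gsN n M g' (fun _ => 0) φ φ ≤ t * c / 2 * gsN n M g' (fun _ => 0) φ φ := by
      refine mul_le_mul_of_nonneg_right ?_ hN
      have := mul_le_mul_of_nonneg_right htC ht.le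
      nlinarith
    nlinarith
  exact ⟨g', w, t * c / 2 / 2, hgt, hw, by positivity, hb⟩

end Claimed.Agent.R314
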