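import Claimed.Agent.R314.B.PoU

/-!
# Row 314, block (B), unit PO: the uniform Poincare inequality for the family `g/2 ≤ g' ≤ 2g`

`po_unif` : the exit of PO-UNIF (interface of block B, msg 23408).
The matrices `A` with `G(u)/2 ≤ A ≤ 2 G(u)`, `u` in a compact subset of a chart domain, form a compact set of positive definite matrices:
`po_pinch` applies.  Owner: helper209.
-/

set_option autoImplicit false
set_option linter.unusedSectionVars false
open scoped ContDiff Topology ENNReal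
open Claims.C0499 Set MeasureTheory Filter Matrix

namespace Claimed.Agent.R314

open Claimed.Agent.R315

variable {d : ℕ}

theorem po_isClosed_psd : IsClosed {A : Matrix (Fin d) (Fin d) ℝ | A.PosSemidef} := by
  have : {A : Matrix (Fin d) (Fin d) ℝ | A.PosSemidef} =
      {A | Aᴴ = A} ∩ ⋂ x : Fin d → ℝ, {A | 0 ≤ star x ⬝ᵥ (A *ᵥ x)} := by
    ext A
    simp only [mem_ofPred_eq, mem_inter_iff, mem_iInter]
    exact Matrix.posSemidef_iff_dotProduct_mulVec
  rw [this]
  refine IsClosed.inter (isClosed_eq (by fun_prop) continuous_id) (isClosed_iInter fun x => ?_)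
  refine isClosed_le continuous_const ?_
  exact Continuous.dotProduct continuous_const
    (Continuous.matrix_mulVec continuous_id continuous_const)

/-- off-diagonal entries of a positive semidefinite matrix. -/
theorem po_psd_entry {A : Matrix (Fin d) (Fin d) ℝ} (hA : A.PosSemidef) (i j : Fin d) :
    |A i j| ≤ (A i i + A j j) / 2 := by
  have hsym : A j i = A i j := by
    have := congrFun (congrFun hA.1 i) j
    simpa using this
  have key : ∀ c : ℝ, 0 ≤ A i i + c * (2 * A i j) + c ^ 2 * A j j := by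
    intro c
    have h := hA.dotProduct_mulVec_nonneg (Pi.single i 1 + c • Pi.single j 1)
    simp only [star_trivial, Matrix.mulVec_add, Matrix.mulVec_smul, Matrix.mulVec_single_one,
      add_dotProduct, dotProduct_add, smul_dotProduct, dotProduct_smul, single_one_dotProduct,
      smul_eq_mul, Matrix.col_apply] at h
    rw [hsym] at h
    nlinarith
  have h1 := key 1
  have h2 := key (-1)
  rw [abs_le]
  constructor <;> linarith

/-- the pinched matrices over a compact set. -/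
theorem po_pinched_compact {P : Type} [TopologicalSpace P] [T2Space P] {K : Set P} (hK : IsCompact K)
    {G : P → Matrix (Fin d) (Fin d) ℝ} (hG : ∀ i j, ContinuousOn (fun u => G u i j) K)
    (hpos : ∀ u ∈ K, (G u).PosDef) :
    ∃ T : Set (Matrix (Fin d) (Fin d) ℝ), IsCompact T ∧ (∀ A ∈ T, A.PosDef) ∧
      ∀ u ∈ K, ∀ A : Matrix (Fin d) (Fin d) ℝ, (A - (1 / 2 : ℝ) • G u).PosSemidef →
        ((2 : ℝ) • G u - A).PosSemidef → A ∈ T := by
  have hGm : ContinuousOn G K := continuousOn_pi.2 fun i => continuousOn_pi.2 fun j => hG i j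
  -- a bound for the diagonal entries
  have hb : ∀ i, ∃ R, ∀ u ∈ K, ‖G u i i‖ ≤ R := fun i => hK.exists_bound_of_continuousOn (hG i i)
  choose R0 hR0 using hb
  obtain ⟨R, hR⟩ : ∃ R : ℝ, ∀ i, 2 * R0 i ≤ R :=
    ⟨∑ i, 2 * |R0 i|, fun i => (mul_le_mul_of_nonneg_left (le_abs_self _) (by norm_num)).trans
      (Finset.single_le_sum (f := fun i => 2 * |R0 i|) (fun i _ => by positivity)
        (Finset.mem_univ i))⟩
  obtain ⟨Box, hBox⟩ : ∃ Box : Set (Matrix (Fin d) (Fin d) ℝ),
      Box = Set.pi univ fun _ => Set.pi univ fun _ => Icc (-R) R := ⟨_, rfl⟩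
  have hBc : IsCompact Box := by
    rw [hBox]
    exact isCompact_univ_pi fun _ => isCompact_univ_pi fun _ => isCompact_Icc
  obtain ⟨F, hF⟩ : ∃ F : P × Matrix (Fin d) (Fin d) ℝ →
      Matrix (Fin d) (Fin d) ℝ × Matrix (Fin d) (Fin d) ℝ,
      F = fun p => (p.2 - (1 / 2 : ℝ) • G p.1, (2 : ℝ) • G p.1 - p.2) := ⟨_, rfl⟩
  have hG1 : ContinuousOn (fun p : P × Matrix (Fin d) (Fin d) ℝ => G p.1) (K ×ˢ Box) :=
    hGm.comp continuousOn_fst fun p hp => hp.1
  have hFc : ContinuousOn F (K ×ˢ Box) := by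
    rw [hF]
    exact (continuousOn_snd.sub (hG1.const_smul (1 / 2 : ℝ))).prodMk
      ((hG1.const_smul (2 : ℝ)).sub continuousOn_snd)
  obtain ⟨Tt, hTt⟩ : ∃ Tt, Tt = (K ×ˢ Box) ∩ F ⁻¹'
      ({A : Matrix (Fin d) (Fin d) ℝ | A.PosSemidef} ×ˢ
        {A : Matrix (Fin d) (Fin d) ℝ | A.PosSemidef}) := ⟨_, rfl⟩
  have hTc : IsCompact Tt := by
    have hKB : IsCompact (K ×ˢ Box) := hK.prod hBc
    rw [hTt]
    exact hKB.of_isClosed_subset (hFc.preimage_isClosed_of_isClosed hKB.isClosed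
      (po_isClosed_psd.prod po_isClosed_psd)) inter_subset_left
  refine ⟨Prod.snd '' Tt, hTc.image continuous_snd, ?_, ?_⟩
  · rintro _ ⟨⟨u, A⟩, hp, rfl⟩
    rw [hTt, hF] at hp
    obtain ⟨⟨hu, -⟩, h1, -⟩ := hp
    have h2 : ((1 / 2 : ℝ) • G u).PosDef := (hpos u hu).smul (by norm_num)
    have := h2.add_posSemidef h1
    simpa using this
  · intro u hu A h1 h2
    refine ⟨(u, A), ?_, rfl⟩
    rw [hTt, hF]
    refine ⟨⟨hu, ?_⟩, h1, h2⟩
    have hA : A.PosSemidef := by
      have h3 : ((1 / 2 : ℝ) • G u).PosDef := (hpos u hu).smul (by norm_num)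
      have := (h3.add_posSemidef h1).posSemidef
      simpa using this
    have hdiag : ∀ i, A i i ≤ R := by
      intro i
      have h3 := h2.diag_nonneg (i := i)
      simp only [Matrix.sub_apply, Matrix.smul_apply, smul_eq_mul] at h3
      have h4 := hR0 i u hu
      rw [Real.norm_eq_abs] at h4
      have h5 := le_abs_self (G u i i)
      have := hR i
      linarith
    rw [hBox]
    intro i _ j _
    have h3 := po_psd_entry hA i j
    rw [abs_le] at h3
    have := hdiag i
    have := hdiag j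
    constructor <;> linarith [h3.1, h3.2]

variable {V : Type} [NormedAddCommGroup V] [NormedSpace ℝ V] [FiniteDimensional ℝ V]
  [MeasurableSpace V] [BorelSpace V]
variable {M : Set V} {g : Ten V} {t f : V → ℝ}

/-- the family `g/2 ≤ g' ≤ 2g` is uniformly pinched. -/
theorem po_unif_pinched (hg : IsMetricOn d M g) (ht : SmoothAlong d M t) :
    PoUFam d M {g' | IsMetricOn d M g' ∧ MetLE d M ((1 / 2 : ℝ) • g) g' ∧
      MetLE d M g' ((2 : ℝ) • g)} t := by
  intro ψ U hp K hK hKU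
  obtain ⟨T, hT, hTpos, hTmem⟩ := po_pinched_compact hK
    (fun i j => ((hg ψ U hp).1 i j).continuousOn.mono hKU) (fun u hu => (hg ψ U hp).2 u (hKU hu))
  obtain ⟨c, hc, h⟩ := po_pinch (d := d) (hT.prod hK)
    (A := fun p : Matrix (Fin d) (Fin d) ℝ × E d => p.1) (e := fun p => t (ψ p.2))
    (fun i j => ((continuous_apply j).comp ((continuous_apply i).comp continuous_fst)).continuousOn)
    (fun p hp' => hTpos p.1 hp'.1)
    (((ht ψ U hp).continuousOn.mono hKU).comp continuousOn_snd fun p hp => hp.2)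
  refine ⟨c, hc, ?_⟩
  rintro g' ⟨-, hlo, hhi⟩ u hu
  have hmem : cm g' ψ u ∈ T := by
    refine hTmem u hu _ ?_ ?_
    · have := hlo ψ U hp u (hKU hu)
      rwa [if_cm_smul] at this
    · have := hhi ψ U hp u (hKU hu)
      rwa [if_cm_smul] at this
  obtain ⟨h1, h2, h3⟩ := h (cm g' ψ u, u) ⟨hmem, hu⟩
  refine ⟨h1, h2, fun f => ?_⟩
  obtain ⟨ξ, hξn, hξ⟩ := gsc_dual (fderiv ℝ f u)
  have h4 := h3 ξ
  rw [hξn] at h4
  have e : ∑ i, ∑ j, (cm g' ψ u)⁻¹ i j * ξ i * ξ j = gradSqC (cm g' ψ) f u := by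
    unfold gradSqC pdiff
    simp only [hξ]
  rw [← e]
  exact h4

/-- **PO-UNIF**: the Poincare inequality with a potential, uniform in the family `g/2 ≤ g' ≤ 2g`. -/
theorem po_unif (hc : IsCompact M) (hconn : IsPreconnected M) (hM : IsMfd d M)
    (hg : IsMetricOn d M g) (hf : SmoothAlong d M f) (h0 : ∀ x ∈ M, 0 ≤ f x) {x₀ : V}
    (hx₀ : x₀ ∈ M) (hpos : 0 < f x₀) :
    ∃ c : ℝ, 0 < c ∧ ∀ g' : Ten V, IsMetricOn d M g' → MetLE d M ((1 / 2 : ℝ) • g) g' →
      MetLE d M g' ((2 : ℝ) • g) → GsGap d M g' (fun _ => 0) 1 f c := by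
  obtain ⟨c, hc0, h⟩ := po_main_unif (t := fun _ => 0) (f := f)
    (𝒢 := {g' | IsMetricOn d M g' ∧ MetLE d M ((1 / 2 : ℝ) • g) g' ∧ MetLE d M g' ((2 : ℝ) • g)}) hM
    (fun g' hg' => { mfd := hM, met := hg'.1, drift := gs_sm_const 0, isVol := if_isVol_vol hM g' })
    (po_unif_pinched hg (gs_sm_const 0)) hc hconn hf h0 hx₀ hpos
  exact ⟨c, hc0, fun g' h1 h2 h3 => h g' ⟨h1, h2, h3⟩⟩

end Claimed.Agent.R314
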