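import Claimed.Agent.R314.B.VarB
import Claimed.Agent.R314.Defs
import Claimed.Agent.R315.Gs.Chart

/-!
# Row 314, block (B), unit VAR, part D: the global statement `var_main`

`M` compact, `scal g ≥ 0`, `Ric ≠ 0` at the point `ψ u0` of a parametrisation `(ψ, U)`.
`K = closedBall u0 r ⊆ U`, `η` a bump function (`η u0 = 1`, `η = 0` off `K`), `H0 = - η Ric(G)`, `G = cm g ψ`,
`ρ` = an ambient tensor with `cm ρ ψ = H0` on `U`, `ρ = 0` off `ψ '' K` (`var_push`), `g' = g + t ρ`.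
Then `cm g' ψ = varG G (cm ρ ψ) t` and `var_chart` applies.  `f = gsPush ψ U (η |Ric|²)`.
The integral inequality is split into `ψ '' U` (chart, Euclidean divergence theorem `gs_integral_pdiff`) and the rest (pointwise).

Leaves: `var_push`, `var_atlas`, `var_global_met`, `var_integral`, `var_bump`, `var_norm_nonneg`, `var_norm_pos`.
EXIT `var_main`.  Architect: helper39.
-/

set_option autoImplicit false
open scoped ContDiff Topology
open Set MeasureTheory Claims.C0499 Claimed.Agent.R315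

namespace Claimed.Agent.R314

variable {n N : ℕ} {M : Set (E N)} {g g' : Ten (E N)} {ψ : E n → E N} {U K : Set (E n)}

/-- LEAF VAR-D1.  Push of a matrix field to an ambient tensor.  `ρ x = (if_bil (H u)).bilinearComp L L`, `u = invFunOn ψ U x`,
`L` a chosen continuous left inverse of `fderiv ℝ ψ u` (injective, finite dimension), for `x ∈ ψ '' U`; `ρ x = 0` otherwise.
(compare `tder` in `R315/Pack001`.) -/
theorem var_push (hp : IsParam M ψ U) (H : rm_MF n) :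
    ∃ ρ : Ten (E N), (∀ u ∈ U, cm ρ ψ u = H u) ∧ (∀ u ∈ U, H u = 0 → ρ (ψ u) = 0) ∧
      ∀ x, x ∉ ψ '' U → ρ x = 0 := by
  classical
  have hL : ∀ u ∈ U, ∃ L : E N →L[ℝ] E n, ∀ a, L (fderiv ℝ ψ u a) = a := by
    intro u hu
    obtain ⟨P, hP⟩ := ContinuousLinearMap.HasLeftInverse.of_injective_of_finiteDimensional
      (f := fderiv ℝ ψ u) (if_imm hp hu)
    exact ⟨P, hP⟩
  choose! L hL using hL
  obtain ⟨ρ, hρ⟩ : ∃ ρ : Ten (E N), ρ = fun x => if x ∈ ψ '' U then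
      (if_bil (H (Function.invFunOn ψ U x))).bilinearComp (L (Function.invFunOn ψ U x))
        (L (Function.invFunOn ψ U x)) else 0 := ⟨_, rfl⟩
  have h1 : ∀ u ∈ U, ρ (ψ u) = (if_bil (H u)).bilinearComp (L u) (L u) := by
    intro u hu
    rw [hρ]
    show (if ψ u ∈ ψ '' U then _ else _) = _
    rw [if_pos (mem_image_of_mem ψ hu), if_leftInv hp hu]
  refine ⟨ρ, ?_, ?_, ?_⟩
  · intro u hu
    ext i j
    show ρ (ψ u) (fderiv ℝ ψ u (eb i)) (fderiv ℝ ψ u (eb j)) = H u i j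
    rw [h1 u hu, ContinuousLinearMap.bilinearComp_apply, hL u hu, hL u hu, if_bil_eb]
  · intro u hu h0
    rw [h1 u hu, h0]
    refine ContinuousLinearMap.ext fun v => ContinuousLinearMap.ext fun w => ?_
    rw [ContinuousLinearMap.bilinearComp_apply, if_bil_apply]
    simp
  · intro x hx
    rw [hρ]
    show (if x ∈ ψ '' U then _ else _) = _
    rw [if_neg hx]

/-- LEAF VAR-D2.  Points off `ψ '' U` have a parametrisation which avoids the compact set `ψ '' K`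
(`if_mono` to `U' ∩ ψ' ⁻¹' (ψ '' K)ᶜ`). -/
theorem var_atlas (hM : IsMfd n M) (hp : IsParam M ψ U) (hK : IsCompact K) (hKU : K ⊆ U) {x : E N}
    (hx : x ∈ M) (hxK : x ∉ ψ '' K) :
    ∃ (ψ' : E n → E N) (U' : Set (E n)), IsParam M ψ' U' ∧ x ∈ ψ' '' U' ∧
      ∀ u' ∈ U', ψ' u' ∉ ψ '' K := by
  obtain ⟨ψ', U', hp', u', hu', rfl⟩ := hM x hx
  have hKc : IsCompact (ψ '' K) := hK.image_of_continuousOn ((if_continuousOn hp).mono hKU)
  have hO : IsOpen (U' ∩ ψ' ⁻¹' (ψ '' K)ᶜ) :=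
    (if_continuousOn hp').isOpen_inter_preimage (if_open hp') hKc.isClosed.isOpen_compl
  exact ⟨ψ', U' ∩ ψ' ⁻¹' (ψ '' K)ᶜ, if_mono hp' hO inter_subset_left, ⟨u', ⟨hu', hxK⟩, rfl⟩,
    fun w hw => hw.2⟩

/-- LEAF VAR-D3.  `if_isMetricOn_of_atlas`, `if_metLE_of_atlas` with the atlas `{(ψ,U)} ∪ var_atlas`; `if_cm_add`, `if_cm_smul`,
`if_cm_congr`. -/
theorem var_global_met (hM : IsMfd n M) (hg : IsMetricOn n M g) (hp : IsParam M ψ U)
    (hK : IsCompact K) (hKU : K ⊆ U) {ρ : Ten (E N)} (h0 : ∀ x, x ∉ ψ '' K → ρ x = 0) {t : ℝ}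
    (hmet : rm_Met (varG (cm g ψ) (cm ρ ψ) t) U)
    (hpin : ∀ u ∈ U, (varG (cm g ψ) (cm ρ ψ) t u - (1 / 2 : ℝ) • cm g ψ u).PosSemidef ∧
      ((2 : ℝ) • cm g ψ u - varG (cm g ψ) (cm ρ ψ) t u).PosSemidef) :
    IsMetricOn n M (g + t • ρ) ∧ MetLE n M ((1 / 2 : ℝ) • g) (g + t • ρ) ∧
      MetLE n M (g + t • ρ) ((2 : ℝ) • g) := by
  have hcm : cm (g + t • ρ) ψ = varG (cm g ψ) (cm ρ ψ) t := by
    funext u
    rw [if_cm_add, if_cm_smul]
    rfl
  have hcm0 : ∀ (ψ' : E n → E N) (w : E n), ψ' w ∉ ψ '' K → cm (g + t • ρ) ψ' w = cm g ψ' w := by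
    intro ψ' w hw
    refine if_cm_congr ?_
    refine ContinuousLinearMap.ext fun v => ContinuousLinearMap.ext fun v' => ?_
    show g (ψ' w) v v' + t * ρ (ψ' w) v v' = g (ψ' w) v v'
    rw [h0 _ hw]
    show g (ψ' w) v v' + t * 0 = g (ψ' w) v v'
    ring
  refine ⟨if_isMetricOn_of_atlas fun x hx => ?_, if_metLE_of_atlas fun x hx => ?_,
    if_metLE_of_atlas fun x hx => ?_⟩
  · by_cases hxK : x ∈ ψ '' K
    · refine ⟨ψ, U, hp, image_mono hKU hxK, ?_, ?_⟩
      · rw [hcm]; exact hmet.smooth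
      · rw [hcm]; exact hmet.pos
    · obtain ⟨ψ', U', hp', hx', hav⟩ := var_atlas hM hp hK hKU hx hxK
      refine ⟨ψ', U', hp', hx', fun i j => ?_, fun u hu => ?_⟩
      · exact ((hg ψ' U' hp').1 i j).congr fun u hu => by rw [hcm0 ψ' u (hav u hu)]
      · rw [hcm0 ψ' u (hav u hu)]; exact (hg ψ' U' hp').2 u hu
  · by_cases hxK : x ∈ ψ '' K
    · refine ⟨ψ, U, hp, image_mono hKU hxK, fun u hu => ?_⟩
      rw [hcm, if_cm_smul]
      exact (hpin u hu).1
    · obtain ⟨ψ', U', hp', hx', hav⟩ := var_atlas hM hp hK hKU hx hxK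
      refine ⟨ψ', U', hp', hx', fun u hu => ?_⟩
      rw [hcm0 ψ' u (hav u hu), if_cm_smul]
      have h1 : cm g ψ' u - (1 / 2 : ℝ) • cm g ψ' u = (1 / 2 : ℝ) • cm g ψ' u := by
        ext i j
        simp only [Matrix.sub_apply, Matrix.smul_apply, smul_eq_mul]
        ring
      show (cm g ψ' u - (1 / 2 : ℝ) • cm g ψ' u).PosSemidef
      rw [h1]
      exact ((hg ψ' U' hp').2 u hu).posSemidef.smul (by norm_num)
  · by_cases hxK : x ∈ ψ '' K
    · refine ⟨ψ, U, hp, image_mono hKU hxK, fun u hu => ?_⟩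
      rw [hcm, if_cm_smul]
      exact (hpin u hu).2
    · obtain ⟨ψ', U', hp', hx', hav⟩ := var_atlas hM hp hK hKU hx hxK
      refine ⟨ψ', U', hp', hx', fun u hu => ?_⟩
      rw [hcm0 ψ' u (hav u hu), if_cm_smul]
      have h1 : (2 : ℝ) • cm g ψ' u - cm g ψ' u = cm g ψ' u := by
        ext i j
        simp only [Matrix.sub_apply, Matrix.smul_apply, smul_eq_mul]
        ring
      show ((2 : ℝ) • cm g ψ' u - cm g ψ' u).PosSemidef
      rw [h1]
      exact ((hg ψ' U' hp').2 u hu).posSemidef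

/-- LEAF VAR-D4.  The integral inequality from a pointwise inequality off the chart and a pointwise inequality up to a divergence
in the chart.  `μ = wvol n M g' 0`, `I = |dφ|² + (scal g' - W) φ²` is continuous on the compact `M`, hence integrable
(`gs_integrable`), `gsB 4 scal - gsB 3 W = ∫ I`; `∫ I = ∫_{ψ''U} I + ∫_{(ψ''U)ᶜ} I`; the second is `≥ 0` (`gs_ae_mem`, `hout`,
`gradSq ≥ 0`), the first is `∫_U I(ψ u) ctRho` (`gs_integral_chart`, `gs_integrableOn_chart`, `ctRho g' 0 ψ u = √det`)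
`≥ ∫_U ∑ ∂_i Z_i = 0` (`gs_integral_pdiff`). -/
theorem var_integral (hc : IsCompact M) (hM : IsMfd n M) (hg' : IsMetricOn n M g')
    (hp : IsParam M ψ U) (hK : IsCompact K) (hKU : K ⊆ U) {W : E N → ℝ} (hW : ContinuousOn W M)
    {φ : E N → ℝ} (hφ : IsTestOn n M φ) (hout : ∀ x ∈ M, x ∉ ψ '' U → W x ≤ scal n M g' x)
    {Z : Fin n → E n → ℝ} (hZ : ∀ i, ContDiffOn ℝ ∞ (Z i) U)
    (hZ0 : ∀ i, ∀ u ∈ U, u ∉ K → Z i u = 0)
    (hin : ∀ u ∈ U, (3 * gradSqC (cm g' ψ) (φ ∘ ψ) u + W (ψ u) * (φ ∘ ψ) u ^ 2)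
          * Real.sqrt (cm g' ψ u).det + ∑ i, pdiff (Z i) i u
        ≤ (4 * gradSqC (cm g' ψ) (φ ∘ ψ) u + scalarCoord (cm g' ψ) u * (φ ∘ ψ) u ^ 2)
          * Real.sqrt (cm g' ψ u).det) :
    gsB n M g' (fun _ => 0) 3 W φ φ ≤ gsB n M g' (fun _ => 0) 4 (scal n M g') φ φ := by
  have hG : GsGeo n M g' (fun _ => 0) :=
    { mfd := hM, met := hg', drift := gs_sm_const 0, isVol := if_isVol_vol hM g' }
  have hU : MeasurableSet U := (if_open hp).measurableSet
  have hS : MeasurableSet (ψ '' U) := if_measurableSet_image hp hU Subset.rfl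
  have hφc : ContinuousOn φ M := if_smoothAlong_continuousOn hM hφ.1
  have hgc : ContinuousOn (gradIp n M g' φ φ) M :=
    if_smoothAlong_continuousOn hM (if_gradIp_smoothAlong hg' hφ.1 hφ.1)
  have hscc : ContinuousOn (scal n M g') M :=
    if_smoothAlong_continuousOn hM (if_scal_smoothAlong hg')
  have hint : ∀ (C : ℝ) (W' : E N → ℝ), ContinuousOn W' M →
      Integrable (fun x => C * gradIp n M g' φ φ x + W' x * (φ x * φ x))
        (wvol n M g' (fun _ => 0)) := fun C W' hW' =>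
    gs_integrable hG ((continuousOn_const.mul hgc).add (hW'.mul (hφc.mul hφc))) (gs_B_cs hG hφ.1 hφ)
  obtain ⟨F, hF⟩ : ∃ F : E N → ℝ, F = fun x => (4 * gradIp n M g' φ φ x +
      scal n M g' x * (φ x * φ x)) - (3 * gradIp n M g' φ φ x + W x * (φ x * φ x)) := ⟨_, rfl⟩
  have hFi : Integrable F (wvol n M g' (fun _ => 0)) := by
    rw [hF]
    exact (hint 4 _ hscc).sub (hint 3 _ hW)
  have hred : gsB n M g' (fun _ => 0) 4 (scal n M g') φ φ - gsB n M g' (fun _ => 0) 3 W φ φ =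
      ∫ x, F x ∂(wvol n M g' (fun _ => 0)) := by
    rw [hF]
    unfold gsB
    rw [integral_sub (hint 4 _ hscc) (hint 3 _ hW)]
  have hpart2 : 0 ≤ ∫ x in (ψ '' U)ᶜ, F x ∂(wvol n M g' (fun _ => 0)) := by
    refine setIntegral_nonneg_of_ae_restrict ?_
    have hm : ∀ᵐ x ∂((wvol n M g' (fun _ => 0)).restrict (ψ '' U)ᶜ), x ∈ M :=
      ae_restrict_of_ae (gs_ae_mem hG)
    filter_upwards [hm, ae_restrict_mem hS.compl] with x hx hxU
    have h1 : 0 ≤ gradIp n M g' φ φ x := gs_sq_nonneg hM hg' hφ.1 hx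
    have h2 : W x * (φ x * φ x) ≤ scal n M g' x * (φ x * φ x) :=
      mul_le_mul_of_nonneg_right (hout x hx hxU) (mul_self_nonneg _)
    rw [hF]
    show 0 ≤ (4 * gradIp n M g' φ φ x + scal n M g' x * (φ x * φ x)) -
      (3 * gradIp n M g' φ φ x + W x * (φ x * φ x))
    linarith
  have hIB := fun i => gs_integral_pdiff (if_open hp) (hZ i) hK hKU (hZ0 i) i
  have hpart1 : 0 ≤ ∫ x in ψ '' U, F x ∂(wvol n M g' (fun _ => 0)) := by
    rw [gs_integral_chart hG hp hU Subset.rfl]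
    have hI1 : IntegrableOn (fun u => F (ψ u) * ctRho g' (fun _ => 0) ψ u) U :=
      (gs_integrableOn_chart hG hp hU Subset.rfl F).1 hFi.integrableOn
    have hI2 : IntegrableOn (fun u => ∑ i, pdiff (Z i) i u) U :=
      integrable_finsetSum _ fun i _ => (hIB i).1
    have h0 : ∫ u in U, ∑ i, pdiff (Z i) i u = 0 := by
      rw [integral_finsetSum _ fun i _ => (hIB i).1]
      exact Finset.sum_eq_zero fun i _ => (hIB i).2
    refine h0.symm.le.trans ?_
    refine setIntegral_mono_on hI2 hI1 hU fun u hu => ?_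
    have h1 := hin u hu
    have e1 : ctRho g' (fun _ => 0) ψ u = Real.sqrt (cm g' ψ u).det := by
      simp [ctRho]
    have e2 : gradIp n M g' φ φ (ψ u) = gradSqC (cm g' ψ) (φ ∘ ψ) u := gs_sq_eq hg' hφ.1 hp hu
    have e3 : F (ψ u) = (4 * gradSqC (cm g' ψ) (φ ∘ ψ) u +
        scalarCoord (cm g' ψ) u * (φ ∘ ψ) u ^ 2) -
        (3 * gradSqC (cm g' ψ) (φ ∘ ψ) u + W (ψ u) * (φ ∘ ψ) u ^ 2) := by
      rw [hF]
      show (4 * gradIp n M g' φ φ (ψ u) + scal n M g' (ψ u) * (φ (ψ u) * φ (ψ u))) -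
        (3 * gradIp n M g' φ φ (ψ u) + W (ψ u) * (φ (ψ u) * φ (ψ u))) = _
      rw [e2, if_scal_eq hg' hp hu]
      simp only [Function.comp_apply, sq]
    rw [e1, e3, sub_mul]
    linarith
  have htot : ∫ x, F x ∂(wvol n M g' (fun _ => 0)) =
      ∫ x in ψ '' U, F x ∂(wvol n M g' (fun _ => 0)) +
        ∫ x in (ψ '' U)ᶜ, F x ∂(wvol n M g' (fun _ => 0)) := (integral_add_compl hS hFi).symm
  linarith

/-- LEAF VAR-D5.  Bump function (`ContDiffBump`). -/
theorem var_bump {u0 : E n} (hU : IsOpen U) (hu0 : u0 ∈ U) :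
    ∃ (r : ℝ) (η : E n → ℝ), 0 < r ∧ Metric.closedBall u0 r ⊆ U ∧ ContDiff ℝ ∞ η ∧
      (∀ u, 0 ≤ η u) ∧ η u0 = 1 ∧ ∀ u, u ∉ Metric.closedBall u0 r → η u = 0 := by
  obtain ⟨r, hr, hrU⟩ := Metric.nhds_basis_closedBall.mem_iff.1 (hU.mem_nhds hu0)
  let f : ContDiffBump u0 := ⟨r / 2, r, by positivity, by linarith⟩
  refine ⟨r, f, hr, hrU, f.contDiff, fun u => f.nonneg, ?_, fun u hu => f.zero_of_le_dist ?_⟩
  · exact f.one_of_mem_closedBall (Metric.mem_closedBall_self (by positivity))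
  · rw [Metric.mem_closedBall, not_le] at hu
    exact hu.le

/-- `∑ (A R A)_{jk} R_{jk} = tr (A R A R)` -/
theorem var_norm_tr {A R : Matrix (Fin n) (Fin n) ℝ} (hR : R.IsSymm) :
    ∑ j, ∑ k, (A * R * A) j k * R j k = (A * R * (A * R)).trace := by
  rw [← Matrix.mul_assoc]
  simp only [Matrix.trace, Matrix.diag_apply]
  refine Finset.sum_congr rfl fun j _ => ?_
  rw [Matrix.mul_apply]
  refine Finset.sum_congr rfl fun k _ => ?_
  rw [hR.apply j k]

/-- `tr (Bᵀ B R Bᵀ B R) = ∑ C_{ij}²`, `C = B R Bᵀ` -/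
theorem var_norm_factor (B : Matrix (Fin n) (Fin n) ℝ) {R : Matrix (Fin n) (Fin n) ℝ} (hR : R.IsSymm) :
    (B.transpose * B * R * (B.transpose * B * R)).trace = ∑ i, ∑ j, (B * R * B.transpose) i j ^ 2 := by
  have hC : (B * R * B.transpose).transpose = B * R * B.transpose := by
    rw [Matrix.transpose_mul, Matrix.transpose_mul, Matrix.transpose_transpose, hR.eq,
      Matrix.mul_assoc]
  have e1 : B.transpose * B * R * (B.transpose * B * R) =
      B.transpose * (B * R * B.transpose * B * R) := by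
    simp only [Matrix.mul_assoc]
  have e2 : B * R * B.transpose * B * R * B.transpose =
      (B * R * B.transpose) * (B * R * B.transpose).transpose := by
    rw [hC]; simp only [Matrix.mul_assoc]
  rw [e1, Matrix.trace_mul_comm, e2]
  simp only [Matrix.trace, Matrix.diag_apply]
  refine Finset.sum_congr rfl fun i _ => ?_
  rw [Matrix.mul_apply]
  refine Finset.sum_congr rfl fun j _ => ?_
  rw [Matrix.transpose_apply, sq]

/-- LEAF VAR-D6.  `|R|²_A = tr(A R A R) ≥ 0` (`rm_tr_factor` / `rm_tr_sq_nonneg`). -/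
theorem var_norm_nonneg {A R : Matrix (Fin n) (Fin n) ℝ} (hA : A.PosDef) (hR : R.IsSymm) :
    0 ≤ ∑ j, ∑ k, (A * R * A) j k * R j k := by
  rw [var_norm_tr hR]
  exact rm_tr_sq_nonneg hA.posSemidef hR

/-- LEAF VAR-D7.  `A = Bᵀ B` with `B` invertible; `tr(A R A R) = ∑ C_{ij}²`, `C = B R Bᵀ`; `C = 0` iff `R = 0`. -/
theorem var_norm_pos {A R : Matrix (Fin n) (Fin n) ℝ} (hA : A.PosDef) (hR : R.IsSymm)
    (hne : R ≠ 0) : 0 < ∑ j, ∑ k, (A * R * A) j k * R j k := by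
  refine lt_of_le_of_ne (var_norm_nonneg hA hR) fun h0 => hne ?_
  have hdet := hA.det_pos
  obtain ⟨B, rfl⟩ := rm_exists_factor hA.posSemidef
  rw [var_norm_tr hR, var_norm_factor B hR] at h0
  have hB : IsUnit B.det := by
    rw [Matrix.det_mul, Matrix.det_transpose] at hdet
    refine isUnit_iff_ne_zero.2 fun hz => ?_
    rw [hz] at hdet
    simp at hdet
  have hBt : IsUnit B.transpose.det := by rw [Matrix.det_transpose]; exact hB
  have hC : B * R * B.transpose = 0 := by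
    ext i j
    have h1 := (Finset.sum_eq_zero_iff_of_nonneg (fun i _ => Finset.sum_nonneg fun j _ => sq_nonneg _)).1 h0.symm i
      (Finset.mem_univ i)
    have h2 := (Finset.sum_eq_zero_iff_of_nonneg (fun j _ => sq_nonneg _)).1 h1 j (Finset.mem_univ j)
    simpa using h2
  have e : R = B⁻¹ * (B * R * B.transpose) * (B.transpose)⁻¹ := by
    rw [Matrix.mul_assoc B R, ← Matrix.mul_assoc B⁻¹, Matrix.nonsing_inv_mul B hB, Matrix.one_mul, Matrix.mul_assoc,
      Matrix.mul_nonsing_inv _ hBt, Matrix.mul_one]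
  rw [e, hC]
  simp

/-- **EXIT of unit VAR**. -/
theorem var_main (hc : IsCompact M) (hM : IsMfd n M) (hg : IsMetricOn n M g)
    (hs : ∀ x ∈ M, 0 ≤ scal n M g x) (hR : ¬ RicFlat n M g) :
    ∃ (f : E N → ℝ) (C t0 : ℝ) (x0 : E N), 0 < t0 ∧ 0 ≤ C ∧ ContinuousOn f M ∧
      (∀ x ∈ M, 0 ≤ f x) ∧ x0 ∈ M ∧ 0 < f x0 ∧ ∀ t, 0 < t → t ≤ t0 →
        ∃ g' : Ten (E N), IsMetricOn n M g' ∧ MetLE n M ((1 / 2 : ℝ) • g) g' ∧
          MetLE n M g' ((2 : ℝ) • g) ∧ ∀ φ, IsTestOn n M φ →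
            gsB n M g' (fun _ => 0) 3 (fun x => t * f x - C * t ^ 2) φ φ
              ≤ gsB n M g' (fun _ => 0) 4 (scal n M g') φ φ := by
  classical
  unfold RicFlat at hR
  push Not at hR
  obtain ⟨ψ, U, hp, u0, hu0, j0, k0, hne⟩ := hR
  obtain ⟨r, η, hr, hrU, hη, hη0, hη1, hηK⟩ := var_bump (if_open hp) hu0
  obtain ⟨K, hKdef⟩ : ∃ K, K = Metric.closedBall u0 r := ⟨_, rfl⟩
  rw [← hKdef] at hrU hηK
  have hK : IsCompact K := hKdef ▸ isCompact_closedBall u0 r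
  obtain ⟨G, hGdef⟩ : ∃ G : rm_MF n, G = cm g ψ := ⟨_, rfl⟩
  have hG : rm_Met G U := hGdef ▸ gs_met hg hp
  obtain ⟨R, hRdef⟩ : ∃ R : rm_MF n, R = fun u => Matrix.of (ricciCoord G u) := ⟨_, rfl⟩
  have hRa : ∀ u j k, R u j k = ricciCoord G u j k := fun u j k => by rw [hRdef]; rfl
  have hRs : ∀ u ∈ U, (R u).IsSymm := fun u hu => by
    ext j k
    rw [Matrix.transpose_apply, hRa, hRa, rm_ricci_symm hG hu]
  obtain ⟨H0, hH0⟩ : ∃ H0 : rm_MF n, H0 = fun u => (-(η u)) • R u := ⟨_, rfl⟩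
  have hH0a : ∀ u, H0 u = (-(η u)) • R u := fun u => by rw [hH0]
  obtain ⟨ρ, hρ1, hρ2, hρ3⟩ := var_push hp H0
  have hH0K : ∀ u, u ∉ K → H0 u = 0 := fun u hu => by rw [hH0a, hηK u hu]; simp
  have hρ0 : ∀ x, x ∉ ψ '' K → ρ x = 0 := by
    intro x hx
    by_cases hxU : x ∈ ψ '' U
    · obtain ⟨u, hu, rfl⟩ := hxU
      exact hρ2 u hu (hH0K u fun h => hx ⟨u, h, rfl⟩)
    · exact hρ3 x hxU
  have hdat : VarDat G (cm ρ ψ) U K :=
    { met := hG
      smooth := fun i j => by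
        have h1 : ContDiffOn ℝ ∞ (fun u => (-(η u)) * ricciCoord G u i j) U :=
          (hη.contDiffOn.neg).mul (rm_ricci_smooth hG i j)
        refine h1.congr fun u hu => ?_
        rw [hρ1 u hu, hH0a, Matrix.smul_apply, hRa, smul_eq_mul]
      symm := fun u hu i j => by
        rw [hρ1 u hu, hH0a, Matrix.smul_apply, Matrix.smul_apply, hRa, hRa, rm_ricci_symm hG hu]
      cpt := hK
      sub := hrU
      zero := fun u hu huK => by rw [hρ1 u hu, hH0K u huK] }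
  obtain ⟨C, t0, hC, ht0, hch⟩ := var_chart hdat
  -- the potential
  obtain ⟨nr, hnr⟩ : ∃ nr : E n → ℝ,
      nr = fun u => ∑ j, ∑ k, ((G u)⁻¹ * R u * (G u)⁻¹) j k * R u j k := ⟨_, rfl⟩
  have hnra : ∀ u, nr u = ∑ j, ∑ k, ((G u)⁻¹ * R u * (G u)⁻¹) j k * R u j k :=
    fun u => by rw [hnr]
  have hL : ∀ u ∈ U, varL G (cm ρ ψ) u = - (η u * nr u) := by
    intro u hu
    unfold varL
    rw [hρ1 u hu, hH0a, hnra, Finset.mul_sum, ← Finset.sum_neg_distrib]
    refine Finset.sum_congr rfl fun j _ => ?_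
    rw [Finset.mul_sum, ← Finset.sum_neg_distrib]
    refine Finset.sum_congr rfl fun k _ => ?_
    rw [Matrix.mul_smul, Matrix.smul_mul, Matrix.smul_apply, hRa, smul_eq_mul]
    ring
  have hnr0 : ∀ u ∈ U, 0 ≤ nr u := fun u hu => by
    rw [hnra]; exact var_norm_nonneg (hG.pos u hu).inv (hRs u hu)
  have hnrpos : 0 < nr u0 := by
    rw [hnra]
    refine var_norm_pos (hG.pos u0 hu0).inv (hRs u0 hu0) fun h0 => hne ?_
    rw [← hGdef, ← hRa, h0]; rfl
  have hnrs : ContDiffOn ℝ ∞ nr U := by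
    rw [hnr]
    refine ContDiffOn.sum fun j _ => ContDiffOn.sum fun k _ => ContDiffOn.mul ?_ ?_
    · simp only [Matrix.mul_apply]
      refine ContDiffOn.sum fun a _ => ContDiffOn.mul (ContDiffOn.sum fun b _ => ContDiffOn.mul
        (rm_inv_smooth hG j b) ?_) (rm_inv_smooth hG a k)
      simp only [hRa]
      exact rm_ricci_smooth hG b a
    · simp only [hRa]
      exact rm_ricci_smooth hG j k
  obtain ⟨b, hbdef⟩ : ∃ b : E n → ℝ, b = fun u => η u * nr u := ⟨_, rfl⟩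
  have hba : ∀ u, b u = η u * nr u := fun u => by rw [hbdef]
  have hb : ContDiffOn ℝ ∞ b U := by rw [hbdef]; exact hη.contDiffOn.mul hnrs
  have hb0 : ∀ u ∈ U, u ∉ K → b u = 0 := fun u _ huK => by rw [hba, hηK u huK, zero_mul]
  obtain ⟨hft, hf0⟩ := gs_push_test hp hb hK hrU hb0
  have hfc : ContinuousOn (gsPush ψ U b) M := if_smoothAlong_continuousOn hM hft.1
  refine ⟨gsPush ψ U b, C, t0, ψ u0, ht0, hC, hfc, ?_, if_mem hp hu0, ?_, fun t ht ht' => ?_⟩
  · intro x _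
    by_cases hxU : x ∈ ψ '' U
    · obtain ⟨u, hu, rfl⟩ := hxU
      rw [gsPush_apply hp b hu, hba]
      exact mul_nonneg (hη0 u) (hnr0 u hu)
    · rw [gsPush_of_not_mem b hxU]
  · rw [gsPush_apply hp b hu0, hba, hη1, one_mul]
    exact hnrpos
  have habs : |t| ≤ t0 := by rw [abs_of_pos ht]; exact ht'
  obtain ⟨hmet, hpin, hF⟩ := hch t habs
  rw [hGdef] at hmet hpin
  obtain ⟨hg', hle1, hle2⟩ := var_global_met hM hg hp hK hrU hρ0 hmet hpin
  refine ⟨g + t • ρ, hg', hle1, hle2, fun φ hφ => ?_⟩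
  obtain ⟨Z, hZ, hZ0, hin⟩ := hF (φ ∘ ψ) (hφ.1 ψ U hp)
  have hcm : cm (g + t • ρ) ψ = varG G (cm ρ ψ) t := by
    funext u
    rw [if_cm_add, if_cm_smul, hGdef]
    rfl
  have hKc : IsCompact (ψ '' K) := hK.image_of_continuousOn ((if_continuousOn hp).mono hrU)
  refine var_integral hc hM hg' hp hK hrU (W := fun x => t * gsPush ψ U b x - C * t ^ 2)
    ((continuousOn_const.mul hfc).sub continuousOn_const) hφ ?_ hZ hZ0 ?_
  · intro x hx hxU
    have hxK : x ∉ ψ '' K := fun h => hxU (image_mono hrU h)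
    have h1 : scal n M (g + t • ρ) x = scal n M g x :=
      if_scal_congr (O := (ψ '' K)ᶜ) (hKc.isClosed.isOpen_compl.mem_nhds hxK) fun y hy => by
        refine ContinuousLinearMap.ext fun v => ContinuousLinearMap.ext fun w => ?_
        show g y v w + t * ρ y v w = g y v w
        rw [hρ0 y hy.2]
        show g y v w + t * 0 = g y v w
        ring
    rw [h1]
    show t * gsPush ψ U b x - C * t ^ 2 ≤ _
    rw [gsPush_of_not_mem b hxU]
    nlinarith [hs x hx, mul_nonneg hC (sq_nonneg t)]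
  · intro u hu
    rw [hcm]
    refine le_trans ?_ (hin u hu)
    have hsc : 0 ≤ scalarCoord G u := by
      rw [hGdef, ← if_scal_eq hg hp hu]; exact hs _ (if_mem hp hu)
    have hρ : 0 ≤ Real.sqrt (varG G (cm ρ ψ) t u).det := Real.sqrt_nonneg _
    have h3 : (t * gsPush ψ U b (ψ u) - C * t ^ 2) * (φ ∘ ψ) u ^ 2 ≤
        (scalarCoord G u - t * varL G (cm ρ ψ) u - C * t ^ 2) * (φ ∘ ψ) u ^ 2 := by
      refine mul_le_mul_of_nonneg_right ?_ (sq_nonneg _)
      rw [gsPush_apply hp b hu, hL u hu, hba]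
      nlinarith
    have h4 := mul_le_mul_of_nonneg_right
      (add_le_add_left h3 (3 * gradSqC (varG G (cm ρ ψ) t) (φ ∘ ψ) u)) hρ
    linarith

end Claimed.Agent.R314
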