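import Claimed.Agent.R314.Defs
import Claimed.Agent.R314.B.Glue
import Claimed.Agent.R314.B.PoUnif
import Claimed.Agent.R314.B.VarD

/-!
# Row 314, block B (chief helper39; PO: helper246, helper209): `scal ≥ 0`, not Ricci flat ⟹ a metric with positive drift scalar curvature

EXIT CONTRACT `drift_of_not_ricFlat` = `drift_of_parts` (`B/Glue.lean`) applied to `po_unif` (`B/PoUnif.lean`) and `var_main` (`B/VarD.lean`).

(PO) Poincare with potential on the closed connected `M`, uniform over the metrics `g/2 ≤ g' ≤ 2g`; hence a gap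
`λ ∫ φ² ≤ ∫ 4|dφ|² + scal φ²`, `GsGap`, `gs_aap_drift`.
(VAR) `g' = g - t η Ric`, `η` a cutoff with compact support in one chart; exact identity for two metrics `G, G'` on `U`, `D = Γ(G') - Γ(G)`:
`scal(G') = G'^{jk} Ric(G)_{jk} + div_{G'} Y ± G'^{jk} (D^i_{ip} D^p_{jk} - D^i_{jp} D^p_{ik})`, `Y^i = G'^{jk} D^i_{jk} - G'^{ik} D^j_{jk}`;
`∫ div(Y) φ² = -2 ∫ φ Y(φ)` is a Euclidean integration by parts (compact support in `U`), absorbed by `|dφ|² + t² |Y|² φ²`.
-/

set_option autoImplicit false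
open scoped ContDiff Topology
open Set Claims.C0499 Claimed.Agent.R315

namespace Claimed.Agent.R314

theorem drift_of_not_ricFlat {n N : ℕ} {M : Set (E N)} {g : Ten (E N)} (hc : IsCompact M)
    (hconn : IsConnected M) (hM : IsMfd n M) (hg : IsMetricOn n M g)
    (hs : ∀ x ∈ M, 0 ≤ scal n M g x) (hR : ¬ RicFlat n M g) :
    ∃ (g' : Ten (E N)) (w : E N → ℝ) (c : ℝ), IsMetricOn n M g' ∧ SmoothAlong n M w ∧ 0 < c ∧
      ∀ x ∈ M, c ≤ Dsc n M g' w x :=
  drift_of_parts (fun h1 h2 h3 h4 _ h5 h6 _ h7 h8 => po_unif h1 h2 h3 h4 h5 h6 h7 h8)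
    (fun h1 h2 h3 h4 h5 => var_main h1 h2 h3 h4 h5) hc hconn hM hg hs hR

end Claimed.Agent.R314
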