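import Claimed.Agent.R315.Gs.Aap

/-!
# Row 314, block (B), unit PO: Poincare inequality with a potential on a closed connected manifold

`po_main` : `(M, g, t)` compact connected, `f ≥ 0` smooth along `M`, `f x₀ > 0` for one `x₀ ∈ M`.  Then
`c ∫ φ² dμ ≤ ∫ (|dφ|² + f φ²) dμ` for all test functions, with `c > 0`.

Route: the set of points which have a neighbourhood `O` with `∫_O φ² ≤ C Q(φ)` contains `x₀`, is relatively clopen in `M`
(closed: ONE translation lemma in a chart, `po_translate`).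
Owner: helper209.
-/

set_option autoImplicit false
set_option linter.unusedSectionVars false
open scoped ContDiff Topology ENNReal
open Claims.C0499 Set MeasureTheory Filter

namespace Claimed.Agent.R314

open Claimed.Agent.R315

/-! ## the Euclidean translation lemma -/

/-- Cauchy-Schwarz on `[0,1]`. -/
theorem po_cs {p : ℝ → ℝ} (hp : ContinuousOn p (Icc 0 1)) :
    (∫ s in (0 : ℝ)..1, p s) ^ 2 ≤ ∫ s in (0 : ℝ)..1, p s ^ 2 := by
  have h01 : (0 : ℝ) ≤ 1 := zero_le_one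
  have hu : uIcc (0 : ℝ) 1 = Icc 0 1 := uIcc_of_le h01
  have i1 : IntervalIntegrable p volume 0 1 := (hu ▸ hp).intervalIntegrable
  have i2 : IntervalIntegrable (fun s => p s ^ 2) volume 0 1 :=
    ((hu ▸ hp).pow 2).intervalIntegrable
  obtain ⟨a, ha⟩ : ∃ a, a = ∫ s in (0 : ℝ)..1, p s := ⟨_, rfl⟩
  have h0 : 0 ≤ ∫ s in (0 : ℝ)..1, (p s - a) ^ 2 :=
    intervalIntegral.integral_nonneg h01 fun s _ => sq_nonneg _
  have e : ∫ s in (0 : ℝ)..1, (p s - a) ^ 2 =
      (∫ s in (0 : ℝ)..1, p s ^ 2) - 2 * a * (∫ s in (0 : ℝ)..1, p s) + a ^ 2 := by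
    have e1 : (fun s => (p s - a) ^ 2) = fun s => p s ^ 2 - 2 * a * p s + a ^ 2 := by
      funext s
      ring
    rw [e1, intervalIntegral.integral_add (i2.sub (i1.const_mul _)) intervalIntegrable_const,
      intervalIntegral.integral_sub i2 (i1.const_mul _), intervalIntegral.integral_const_mul,
      intervalIntegral.integral_const]
    simp
  rw [e, ← ha] at h0
  rw [← ha]
  nlinarith

variable {d : ℕ}

/-- pointwise: `b(x+h)² ≤ 2 b(x)² + 2 |h|² ∫₀¹ |Db(x+sh)|² ds`. -/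
theorem po_pointwise {U : Set (E d)} (hU : IsOpen U) {b : E d → ℝ} (hb : ContDiffOn ℝ ∞ b U)
    {x h : E d} (hx : ∀ s ∈ Icc (0 : ℝ) 1, x + s • h ∈ U) :
    b (x + h) ^ 2 ≤ 2 * b x ^ 2 +
      2 * ‖h‖ ^ 2 * ∫ s in (0 : ℝ)..1, ‖fderiv ℝ b (x + s • h)‖ ^ 2 := by
  have h01 : (0 : ℝ) ≤ 1 := zero_le_one
  have hu : uIcc (0 : ℝ) 1 = Icc 0 1 := uIcc_of_le h01
  have hline : Continuous fun s : ℝ => x + s • h := by fun_prop
  have hDc : ContinuousOn (fderiv ℝ b) U := hb.continuousOn_fderiv_of_isOpen hU (by norm_num)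
  have hDl : ContinuousOn (fun s : ℝ => fderiv ℝ b (x + s • h)) (Icc 0 1) :=
    hDc.comp hline.continuousOn hx
  have hder : ∀ s ∈ uIcc (0 : ℝ) 1,
      HasDerivAt (fun s : ℝ => b (x + s • h)) (fderiv ℝ b (x + s • h) h) s := by
    intro s hs
    rw [hu] at hs
    have h1 : HasFDerivAt b (fderiv ℝ b (x + s • h)) (x + s • h) :=
      ((hb.differentiableOn (by norm_num)).differentiableAt (hU.mem_nhds (hx s hs))).hasFDerivAt
    have h2 : HasDerivAt (fun s : ℝ => x + s • h) h s := by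
      simpa using ((hasDerivAt_id s).smul_const h).const_add x
    exact h1.comp_hasDerivAt s h2
  have hpc : ContinuousOn (fun s : ℝ => fderiv ℝ b (x + s • h) h) (Icc 0 1) :=
    hDl.clm_apply continuousOn_const
  have hftc := intervalIntegral.integral_eq_sub_of_hasDerivAt hder (hu ▸ hpc).intervalIntegrable
  simp only [one_smul, zero_smul, add_zero] at hftc
  have hcs := po_cs hpc
  have hle : ∫ s in (0 : ℝ)..1, (fderiv ℝ b (x + s • h) h) ^ 2 ≤
      ‖h‖ ^ 2 * ∫ s in (0 : ℝ)..1, ‖fderiv ℝ b (x + s • h)‖ ^ 2 := by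
    rw [← intervalIntegral.integral_const_mul]
    refine intervalIntegral.integral_mono_on h01 ((hu ▸ hpc).pow 2).intervalIntegrable
      (((hu ▸ hDl).norm.pow 2).intervalIntegrable.const_mul _) fun s _ => ?_
    have h3 := (fderiv ℝ b (x + s • h)).le_opNorm h
    rw [Real.norm_eq_abs] at h3
    calc (fderiv ℝ b (x + s • h) h) ^ 2 = |fderiv ℝ b (x + s • h) h| ^ 2 := (sq_abs _).symm
      _ ≤ (‖fderiv ℝ b (x + s • h)‖ * ‖h‖) ^ 2 := by gcongr
      _ = _ := by ring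
  rw [hftc] at hcs
  nlinarith [sq_nonneg (b (x + h) - 2 * b x)]

/-- translation of a set integral. -/
theorem po_shift (F : E d → ℝ) (A : Set (E d)) (a : E d) :
    ∫ x in A, F (x + a) = ∫ y in (fun x => x + a) '' A, F y := by
  have h1 := (measurePreserving_add_right (volume : Measure (E d)) a).setIntegral_preimage_emb
    (measurableEmbedding_addRight a) F ((fun x => x + a) '' A)
  rw [preimage_image_eq _ (add_left_injective a)] at h1
  exact h1

/-- **the translation lemma**. -/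
theorem po_translate {U : Set (E d)} (hU : IsOpen U) {b : E d → ℝ} (hb : ContDiffOn ℝ ∞ b U)
    {v h : E d} {r : ℝ} {K : Set (E d)} (hK : IsCompact K) (hKU : K ⊆ U)
    (hsub : ∀ x ∈ Metric.closedBall v r, ∀ s ∈ Icc (0 : ℝ) 1, x + s • h ∈ K) :
    ∫ x in Metric.closedBall (v + h) r, b x ^ 2 ≤
      2 * (∫ x in Metric.closedBall v r, b x ^ 2) +
        2 * ‖h‖ ^ 2 * ∫ x in K, ‖fderiv ℝ b x‖ ^ 2 := by
  obtain ⟨B, hBdef⟩ : ∃ B, B = Metric.closedBall v r := ⟨_, rfl⟩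
  rw [← hBdef] at hsub ⊢
  have hB : IsCompact B := hBdef ▸ isCompact_closedBall v r
  have hBm : MeasurableSet B := hB.measurableSet
  have hBK : B ⊆ K := fun x hx => by simpa using hsub x hx 0 (by simp)
  have hDc : ContinuousOn (fderiv ℝ b) U := hb.continuousOn_fderiv_of_isOpen hU (by norm_num)
  have hbc : ContinuousOn b U := hb.continuousOn
  obtain ⟨F, hFdef⟩ : ∃ F : E d → ℝ → ℝ, F = fun x s => ‖fderiv ℝ b (x + s • h)‖ ^ 2 := ⟨_, rfl⟩
  obtain ⟨D, hDdef⟩ : ∃ D : ℝ, D = ∫ x in K, ‖fderiv ℝ b x‖ ^ 2 := ⟨_, rfl⟩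
  have hDK : IntegrableOn (fun x => ‖fderiv ℝ b x‖ ^ 2) K :=
    ((hDc.mono hKU).norm.pow 2).integrableOn_compact hK
  -- joint continuity
  have hFc : ContinuousOn (Function.uncurry F) (B ×ˢ Icc (0 : ℝ) 1) := by
    rw [hFdef]
    have hm : Continuous fun p : E d × ℝ => p.1 + p.2 • h := by fun_prop
    have hmt : MapsTo (fun p : E d × ℝ => p.1 + p.2 • h) (B ×ˢ Icc (0 : ℝ) 1) U :=
      fun p hp => hKU (hsub p.1 hp.1 p.2 hp.2)
    exact (hDc.comp hm.continuousOn hmt).norm.pow 2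
  have hFi : Integrable (Function.uncurry F)
      ((volume.restrict B).prod (volume.restrict (Ioc (0 : ℝ) 1))) := by
    rw [Measure.prod_restrict]
    exact (hFc.integrableOn_compact (hB.prod isCompact_Icc)).mono_set
      (prod_mono_right Ioc_subset_Icc_self)
  -- the shifted ball
  have e1 : Metric.closedBall (v + h) r = (fun x => x + h) '' B := by
    rw [hBdef]
    ext y
    constructor
    · intro hy
      refine ⟨y - h, ?_, by simp⟩
      rw [Metric.mem_closedBall, dist_eq_norm] at hy ⊢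
      rwa [show y - h - v = y - (v + h) by abel]
    · rintro ⟨x, hx, rfl⟩
      rw [Metric.mem_closedBall, dist_eq_norm] at hx ⊢
      rwa [add_sub_add_right_eq_sub]
  rw [e1, ← po_shift]
  -- integrate the pointwise inequality
  have hI1 : IntegrableOn (fun x => b (x + h) ^ 2) B := by
    have hm : Continuous fun x : E d => x + h := by fun_prop
    have hmt : MapsTo (fun x : E d => x + h) B U :=
      fun x hx => hKU (by simpa using hsub x hx 1 (by simp))
    exact ((hbc.comp hm.continuousOn hmt).pow 2).integrableOn_compact hB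
  have hI2 : IntegrableOn (fun x => b x ^ 2) B :=
    ((hbc.mono (hBK.trans hKU)).pow 2).integrableOn_compact hB
  have hI3 : IntegrableOn (fun x => ∫ s in Ioc (0 : ℝ) 1, F x s) B := hFi.integral_prod_left
  have step1 : ∫ x in B, b (x + h) ^ 2 ≤
      ∫ x in B, (2 * b x ^ 2 + 2 * ‖h‖ ^ 2 * ∫ s in Ioc (0 : ℝ) 1, F x s) := by
    refine setIntegral_mono_on hI1 ((hI2.const_mul 2).add (hI3.const_mul _)) hBm fun x hx => ?_
    have := po_pointwise hU hb (x := x) (h := h) fun s hs => hKU (hsub x hx s hs)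
    rw [intervalIntegral.integral_of_le zero_le_one] at this
    rw [hFdef]
    exact this
  have step2 : ∫ x in B, (2 * b x ^ 2 + 2 * ‖h‖ ^ 2 * ∫ s in Ioc (0 : ℝ) 1, F x s) =
      2 * (∫ x in B, b x ^ 2) + 2 * ‖h‖ ^ 2 * ∫ x in B, ∫ s in Ioc (0 : ℝ) 1, F x s := by
    rw [integral_add (hI2.const_mul 2) (hI3.const_mul _), integral_const_mul, integral_const_mul]
  have step3 : ∫ x in B, ∫ s in Ioc (0 : ℝ) 1, F x s ≤ D := by
    rw [integral_integral_swap hFi]
    have hle : ∀ s ∈ Ioc (0 : ℝ) 1, ∫ x in B, F x s ≤ D := by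
      intro s hs
      rw [hFdef, hDdef]
      rw [po_shift (fun y => ‖fderiv ℝ b y‖ ^ 2) B (s • h)]
      refine setIntegral_mono_set hDK (Eventually.of_forall fun x => by positivity)
        (LE.le.eventuallyLE ?_)
      rintro _ ⟨x, hx, rfl⟩
      exact hsub x hx s (Ioc_subset_Icc_self hs)
    have hI4 : IntegrableOn (fun s => ∫ x in B, F x s) (Ioc (0 : ℝ) 1) := hFi.integral_prod_right
    calc ∫ s in Ioc (0 : ℝ) 1, ∫ x in B, F x s ≤ ∫ _s in Ioc (0 : ℝ) 1, D :=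
          setIntegral_mono_on hI4 (integrableOn_const (by simp)) measurableSet_Ioc hle
      _ = D := by simp
  rw [← hDdef]
  calc ∫ x in B, b (x + h) ^ 2 ≤ _ := step1
    _ = _ := step2
    _ ≤ _ := by gcongr

/-! ## the manifold -/

variable {V : Type} [NormedAddCommGroup V] [NormedSpace ℝ V] [FiniteDimensional ℝ V]
  [MeasurableSpace V] [BorelSpace V]
variable {M : Set V} {g : Ten V} {t f φ : V → ℝ}

/-- `∫_A φ² dμ ≤ C Q(φ)` for all test functions. -/
def PoCtrl (d : ℕ) (M : Set V) (g : Ten V) (t f : V → ℝ) (A : Set V) : Prop :=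
  ∃ C : ℝ, 0 ≤ C ∧ ∀ φ : V → ℝ, IsTestOn d M φ →
    ∫ x in A, φ x * φ x ∂(wvol d M g t) ≤ C * gsB d M g t 1 f φ φ

theorem po_sq_integrable (hG : GsGeo d M g t) (hφ : IsTestOn d M φ) :
    Integrable (fun x => gradSq d M g φ x) (wvol d M g t) := by
  have := gs_B_integrable (C := 1) (W := fun _ => 0) hG (gs_sm_const 0) hφ.1 hφ
  simp only [one_mul, zero_mul, add_zero] at this
  exact this

theorem po_f_integrable (hG : GsGeo d M g t) (hf : SmoothAlong d M f) (hφ : IsTestOn d M φ) :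
    Integrable (fun x => f x * (φ x * φ x)) (wvol d M g t) := by
  have := gs_B_integrable (C := 0) (W := f) hG hf hφ.1 hφ
  simpa using this

theorem po_Q_eq (hG : GsGeo d M g t) (hf : SmoothAlong d M f) (hφ : IsTestOn d M φ) :
    gsB d M g t 1 f φ φ = ∫ x, gradSq d M g φ x ∂(wvol d M g t) +
      ∫ x, f x * (φ x * φ x) ∂(wvol d M g t) := by
  unfold gsB
  rw [← integral_add (po_sq_integrable hG hφ) (po_f_integrable hG hf hφ)]
  refine integral_congr_ae (Eventually.of_forall fun x => ?_)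
  show 1 * gradIp d M g φ φ x + _ = gradSq d M g φ x + _
  rw [one_mul]
  rfl

theorem po_sq_nonneg_ae (hG : GsGeo d M g t) (hφ : IsTestOn d M φ) :
    ∀ᵐ x ∂(wvol d M g t), 0 ≤ gradSq d M g φ x := by
  filter_upwards [gs_ae_mem hG] with x hx
  exact gs_sq_nonneg hG.mfd hG.met hφ.1 hx

theorem po_f_nonneg_ae (hG : GsGeo d M g t) (h0 : ∀ x ∈ M, 0 ≤ f x) :
    ∀ᵐ x ∂(wvol d M g t), 0 ≤ f x * (φ x * φ x) := by
  filter_upwards [gs_ae_mem hG] with x hx
  exact mul_nonneg (h0 x hx) (mul_self_nonneg _)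

/-- the energy on any set is bounded by `Q`. -/
theorem po_sq_le (hG : GsGeo d M g t) (hf : SmoothAlong d M f) (h0 : ∀ x ∈ M, 0 ≤ f x)
    (hφ : IsTestOn d M φ) (A : Set V) :
    ∫ x in A, gradSq d M g φ x ∂(wvol d M g t) ≤ gsB d M g t 1 f φ φ := by
  rw [po_Q_eq hG hf hφ]
  have h1 : ∫ x in A, gradSq d M g φ x ∂(wvol d M g t) ≤ ∫ x, gradSq d M g φ x ∂(wvol d M g t) :=
    setIntegral_le_integral (po_sq_integrable hG hφ) (po_sq_nonneg_ae hG hφ)
  have h2 : 0 ≤ ∫ x, f x * (φ x * φ x) ∂(wvol d M g t) := integral_nonneg_of_ae (po_f_nonneg_ae hG h0)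
  linarith

theorem po_f_le (hG : GsGeo d M g t) (hf : SmoothAlong d M f) (h0 : ∀ x ∈ M, 0 ≤ f x)
    (hφ : IsTestOn d M φ) (A : Set V) :
    ∫ x in A, f x * (φ x * φ x) ∂(wvol d M g t) ≤ gsB d M g t 1 f φ φ := by
  rw [po_Q_eq hG hf hφ]
  have h1 : ∫ x in A, f x * (φ x * φ x) ∂(wvol d M g t) ≤
      ∫ x, f x * (φ x * φ x) ∂(wvol d M g t) :=
    setIntegral_le_integral (po_f_integrable hG hf hφ) (po_f_nonneg_ae hG h0)
  have h2 : 0 ≤ ∫ x, gradSq d M g φ x ∂(wvol d M g t) := integral_nonneg_of_ae (po_sq_nonneg_ae hG hφ)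
  linarith

theorem po_Q_nonneg (hG : GsGeo d M g t) (hf : SmoothAlong d M f) (h0 : ∀ x ∈ M, 0 ≤ f x)
    (hφ : IsTestOn d M φ) : 0 ≤ gsB d M g t 1 f φ φ := by
  have := po_sq_le hG hf h0 hφ ∅
  simpa using this

theorem po_N_integrable (hG : GsGeo d M g t) (hφ : IsTestOn d M φ) :
    Integrable (fun x => φ x * φ x) (wvol d M g t) := gs_N_integrable hG hφ.1 hφ

theorem PoCtrl.mono (hG : GsGeo d M g t) {A B : Set V} (hAB : A ⊆ B)
    (hB : PoCtrl d M g t f B) : PoCtrl d M g t f A := by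
  obtain ⟨C, hC, h⟩ := hB
  refine ⟨C, hC, fun φ hφ => le_trans ?_ (h φ hφ)⟩
  exact setIntegral_mono_set (po_N_integrable hG hφ).integrableOn
    (Eventually.of_forall fun x => mul_self_nonneg _) (LE.le.eventuallyLE hAB)

/-- only the part in `M` counts. -/
theorem PoCtrl.of_inter (hG : GsGeo d M g t) {A B : Set V} (hAB : M ∩ A ⊆ B)
    (hB : PoCtrl d M g t f B) : PoCtrl d M g t f A := by
  obtain ⟨C, hC, h⟩ := hB
  refine ⟨C, hC, fun φ hφ => le_trans ?_ (h φ hφ)⟩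
  refine setIntegral_mono_set (po_N_integrable hG hφ).integrableOn
    (Eventually.of_forall fun x => mul_self_nonneg _) ?_
  filter_upwards [gs_ae_mem hG] with x hx hxA
  exact hAB ⟨hx, hxA⟩

theorem PoCtrl.union (hG : GsGeo d M g t) {A B : Set V} (hA : PoCtrl d M g t f A) (hB : PoCtrl d M g t f B) :
    PoCtrl d M g t f (A ∪ B) := by
  obtain ⟨C, hC, h⟩ := hA
  obtain ⟨C', hC', h'⟩ := hB
  refine ⟨C + C', add_nonneg hC hC', fun φ hφ => ?_⟩
  have hi := po_N_integrable hG hφ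
  have h1 : ∫ x in A ∪ B, φ x * φ x ∂(wvol d M g t) ≤
      ∫ x, φ x * φ x ∂((wvol d M g t).restrict A + (wvol d M g t).restrict B) :=
    integral_mono_measure (Measure.restrict_union_le A B)
      (Eventually.of_forall fun x => mul_self_nonneg _)
      (Integrable.add_measure hi.integrableOn hi.integrableOn)
  rw [integral_add_measure hi.integrableOn hi.integrableOn] at h1
  have := h φ hφ
  have := h' φ hφ
  linarith

theorem po_ctrl_empty : PoCtrl d M g t f ∅ := ⟨0, le_rfl, fun φ _ => by simp⟩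

/-- the base point. -/
theorem po_ctrl_base (hG : GsGeo d M g t) (hf : SmoothAlong d M f) (h0 : ∀ x ∈ M, 0 ≤ f x)
    {x₀ : V} (hx₀ : x₀ ∈ M) (hpos : 0 < f x₀) :
    ∃ O : Set V, IsOpen O ∧ x₀ ∈ O ∧ PoCtrl d M g t f O := by
  have hc : ContinuousOn f M := if_smoothAlong_continuousOn hG.mfd hf
  have h1 : ∀ᶠ y in 𝓝[M] x₀, f x₀ / 2 < f y := (hc x₀ hx₀).eventually (lt_mem_nhds (by linarith))
  obtain ⟨O, hO, hxO, hOM⟩ := mem_nhdsWithin.1 h1
  refine ⟨O, hO, hxO, 2 / f x₀, by positivity, fun φ hφ => ?_⟩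
  have h2 : ∫ x in O, φ x * φ x ∂(wvol d M g t) ≤
      ∫ x in O, 2 / f x₀ * (f x * (φ x * φ x)) ∂(wvol d M g t) := by
    refine integral_mono_ae (po_N_integrable hG hφ).integrableOn
      ((po_f_integrable hG hf hφ).integrableOn.const_mul _) ?_
    have hm : ∀ᵐ x ∂((wvol d M g t).restrict O), x ∈ M := ae_restrict_of_ae (gs_ae_mem hG)
    filter_upwards [hm, ae_restrict_mem hO.measurableSet] with x hxM hxO'
    have h3 : f x₀ / 2 < f x := hOM ⟨hxO', hxM⟩
    have h4 : 1 ≤ 2 / f x₀ * f x := by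
      rw [div_mul_eq_mul_div, le_div_iff₀ hpos]
      linarith
    have h5 : 0 ≤ φ x * φ x := mul_self_nonneg _
    calc φ x * φ x = 1 * (φ x * φ x) := (one_mul _).symm
      _ ≤ (2 / f x₀ * f x) * (φ x * φ x) := mul_le_mul_of_nonneg_right h4 h5
      _ = _ := by ring
  rw [integral_const_mul] at h2
  exact h2.trans (mul_le_mul_of_nonneg_left (po_f_le hG hf h0 hφ O) (by positivity))

/-- the chart step: control propagates inside a chart ball. -/
theorem po_ctrl_step (hG : GsGeo d M g t) (hf : SmoothAlong d M f) (h0 : ∀ x ∈ M, 0 ≤ f x)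
    {ψ : E d → V} {U : Set (E d)} (hp : IsParam M ψ U) {u v : E d} {ρ r : ℝ}
    (hρ : Metric.closedBall u (3 * ρ) ⊆ U) (hv : ‖u - v‖ ≤ ρ) (hr0 : 0 < r) (hr : r ≤ ρ)
    (hctrl : PoCtrl d M g t f (ψ '' Metric.closedBall v r)) :
    PoCtrl d M g t f (ψ '' Metric.closedBall u r) := by
  obtain ⟨C, hC, hctrl⟩ := hctrl
  obtain ⟨K, hKdef⟩ : ∃ K, K = Metric.closedBall u (3 * ρ) := ⟨_, rfl⟩
  have hK : IsCompact K := hKdef ▸ isCompact_closedBall u (3 * ρ)
  have hKU : K ⊆ U := hKdef ▸ hρ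
  obtain ⟨c, hc, hcmp0⟩ := gs_chart_cmp (gs_met hG.met hp) (hG.drift ψ U hp) hK hKU
  have hcmp : ∀ u ∈ K, 1 ≤ c * ctRho g t ψ u ∧ ctRho g t ψ u ≤ c ∧
      ∀ f : E d → ℝ, ‖fderiv ℝ f u‖ ^ 2 ≤ c * (gradSqC (cm g ψ) f u * ctRho g t ψ u) := hcmp0
  have hsub : ∀ x ∈ Metric.closedBall v r, ∀ s ∈ Icc (0 : ℝ) 1, x + s • (u - v) ∈ K := by
    intro x hx s hs
    rw [hKdef, Metric.mem_closedBall, dist_eq_norm]
    rw [Metric.mem_closedBall, dist_eq_norm] at hx
    have e : x + s • (u - v) - u = (x - v) + (s - 1) • (u - v) := by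
      rw [sub_smul, one_smul]
      abel
    rw [e]
    have h1 : ‖(s - 1) • (u - v)‖ ≤ ρ := by
      rw [norm_smul, Real.norm_eq_abs]
      have : |s - 1| ≤ 1 := by
        rw [abs_le]
        constructor <;> linarith [hs.1, hs.2]
      calc |s - 1| * ‖u - v‖ ≤ 1 * ρ := by gcongr
        _ = ρ := one_mul _
    calc ‖(x - v) + (s - 1) • (u - v)‖ ≤ ‖x - v‖ + ‖(s - 1) • (u - v)‖ := norm_add_le _ _
      _ ≤ r + ρ := add_le_add hx h1
      _ ≤ 3 * ρ := by linarith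
  have hBvK : Metric.closedBall v r ⊆ K := fun x hx => by simpa using hsub x hx 0 (by simp)
  have hBuK : Metric.closedBall u r ⊆ K := by
    rw [hKdef]
    exact Metric.closedBall_subset_closedBall (by linarith)
  refine ⟨c * (2 * (c * C) + 2 * ρ ^ 2 * c), by positivity, fun φ hφ => ?_⟩
  obtain ⟨Q, hQ⟩ : ∃ Q, Q = gsB d M g t 1 f φ φ := ⟨_, rfl⟩
  rw [← hQ]
  have hQ0 : 0 ≤ Q := hQ ▸ po_Q_nonneg hG hf h0 hφ
  obtain ⟨b, hbdef⟩ : ∃ b : E d → ℝ, b = fun w => φ (ψ w) := ⟨_, rfl⟩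
  have hb : ContDiffOn ℝ ∞ b U := hbdef ▸ hφ.1 ψ U hp
  have hbc : ContinuousOn b U := hb.continuousOn
  have hρc : ContinuousOn (ctRho g t ψ) U := (gs_ctRho_smooth hG hp).continuousOn
  have hbb : ContinuousOn (fun w => φ (ψ w) * φ (ψ w) * ctRho g t ψ w) U := by
    have hbc' : ContinuousOn (fun w => φ (ψ w)) U := hbdef ▸ hbc
    exact (hbc'.mul hbc').mul hρc
  have htr := po_translate (if_open hp) hb hK hKU hsub
  rw [add_sub_cancel] at htr
  -- the three comparisons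
  have c1 : ∫ x in ψ '' Metric.closedBall u r, φ x * φ x ∂(wvol d M g t) ≤
      c * ∫ w in Metric.closedBall u r, b w ^ 2 := by
    rw [gs_integral_chart hG hp measurableSet_closedBall (hBuK.trans hKU), ← integral_const_mul]
    refine setIntegral_mono_on ?_ ?_ measurableSet_closedBall fun w hw => ?_
    · exact (hbb.mono (hBuK.trans hKU)).integrableOn_compact (isCompact_closedBall u r)
    · exact (((hbc.pow 2).mono (hBuK.trans hKU)).integrableOn_compact
        (isCompact_closedBall u r)).const_mul c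
    · have h1 := (hcmp w (hBuK hw)).2.1
      rw [hbdef]
      show φ (ψ w) * φ (ψ w) * ctRho g t ψ w ≤ c * φ (ψ w) ^ 2
      nlinarith [mul_self_nonneg (φ (ψ w))]
  have c2 : ∫ w in Metric.closedBall v r, b w ^ 2 ≤ c * (C * Q) := by
    have h1 : ∫ w in Metric.closedBall v r, b w ^ 2 ≤
        c * ∫ x in ψ '' Metric.closedBall v r, φ x * φ x ∂(wvol d M g t) := by
      rw [gs_integral_chart hG hp measurableSet_closedBall (hBvK.trans hKU), ← integral_const_mul]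
      refine setIntegral_mono_on ?_ ?_ measurableSet_closedBall fun w hw => ?_
      · exact ((hbc.pow 2).mono (hBvK.trans hKU)).integrableOn_compact (isCompact_closedBall v r)
      · exact ((hbb.mono (hBvK.trans hKU)).integrableOn_compact
          (isCompact_closedBall v r)).const_mul c
      · have h1 := (hcmp w (hBvK hw)).1
        rw [hbdef]
        show φ (ψ w) ^ 2 ≤ c * (φ (ψ w) * φ (ψ w) * ctRho g t ψ w)
        nlinarith [mul_self_nonneg (φ (ψ w))]
    exact h1.trans (mul_le_mul_of_nonneg_left (hQ ▸ hctrl φ hφ) hc.le)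
  have c3 : ∫ w in K, ‖fderiv ℝ b w‖ ^ 2 ≤ c * Q := by
    have h1 : ∫ w in K, ‖fderiv ℝ b w‖ ^ 2 ≤
        c * ∫ x in ψ '' K, gradSq d M g φ x ∂(wvol d M g t) := by
      rw [gs_integral_chart hG hp hK.measurableSet hKU, ← integral_const_mul]
      have hDc : ContinuousOn (fderiv ℝ b) U :=
        hb.continuousOn_fderiv_of_isOpen (if_open hp) (by norm_num)
      refine setIntegral_mono_on ?_ ?_ hK.measurableSet fun w hw => ?_
      · exact ((hDc.mono hKU).norm.pow 2).integrableOn_compact hK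
      · exact (((((if_gradSq_smoothAlong hG.met hφ.1) ψ U hp).continuousOn.mul hρc).mono
          hKU).integrableOn_compact hK).const_mul c
      · have h1 := (hcmp w hw).2.2 b
        rw [gs_sq_eq hG.met hφ.1 hp (hKU hw), ← hbdef]
        exact h1
    exact h1.trans (mul_le_mul_of_nonneg_left (hQ ▸ po_sq_le hG hf h0 hφ _) hc.le)
  have hn : ‖u - v‖ ^ 2 ≤ ρ ^ 2 := by gcongr
  have hD0 : 0 ≤ ∫ w in K, ‖fderiv ℝ b w‖ ^ 2 := integral_nonneg fun w => by positivity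
  calc ∫ x in ψ '' Metric.closedBall u r, φ x * φ x ∂(wvol d M g t)
      ≤ c * ∫ w in Metric.closedBall u r, b w ^ 2 := c1
    _ ≤ c * (2 * (∫ x in Metric.closedBall v r, b x ^ 2) +
          2 * ‖u - v‖ ^ 2 * ∫ x in K, ‖fderiv ℝ b x‖ ^ 2) := mul_le_mul_of_nonneg_left htr hc.le
    _ ≤ c * (2 * (c * (C * Q)) + 2 * ρ ^ 2 * (c * Q)) := by gcongr
    _ = c * (2 * (c * C) + 2 * ρ ^ 2 * c) * Q := by ring

/-- closedness: a point of `M` all of whose neighbourhoods meet the controlled part of `M` is controlled. -/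
theorem po_ctrl_closed (hG : GsGeo d M g t) (hf : SmoothAlong d M f) (h0 : ∀ x ∈ M, 0 ≤ f x)
    {x : V} (hx : x ∈ M)
    (hacc : ∀ O : Set V, IsOpen O → x ∈ O →
      ∃ y ∈ M ∩ O, ∃ O' : Set V, IsOpen O' ∧ y ∈ O' ∧ PoCtrl d M g t f O') :
    ∃ O : Set V, IsOpen O ∧ x ∈ O ∧ PoCtrl d M g t f O := by
  obtain ⟨ψ, U, hp, u, hu, rfl⟩ := hG.mfd x hx
  obtain ⟨ρ', hρ', hb⟩ := Metric.nhds_basis_closedBall.mem_iff.1 ((if_open hp).mem_nhds hu)
  obtain ⟨ρ, hρdef⟩ : ∃ ρ, ρ = ρ' / 3 := ⟨_, rfl⟩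
  have hρ : 0 < ρ := by rw [hρdef]; positivity
  have hb3 : Metric.closedBall u (3 * ρ) ⊆ U := by
    rw [hρdef, mul_div_cancel₀ _ (by norm_num : (3 : ℝ) ≠ 0)]
    exact hb
  have hbρ : Metric.ball u ρ ⊆ U :=
    (Metric.ball_subset_closedBall.trans (Metric.closedBall_subset_closedBall (by linarith))).trans hb3
  obtain ⟨O₁, hO₁, hO₁e⟩ := if_image_open hp Metric.isOpen_ball hbρ
  have hxO₁ : ψ u ∈ O₁ := by
    have : ψ u ∈ M ∩ O₁ := hO₁e ▸ mem_image_of_mem ψ (Metric.mem_ball_self hρ)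
    exact this.2
  obtain ⟨y, hy, O', hO', hyO', hctrl⟩ := hacc O₁ hO₁ hxO₁
  rw [← hO₁e] at hy
  obtain ⟨v, hv, rfl⟩ := hy
  have hvU : v ∈ U := hbρ hv
  have hcont : ContinuousAt ψ v := (if_continuousOn hp).continuousAt ((if_open hp).mem_nhds hvU)
  obtain ⟨r', hr', hbr⟩ := Metric.nhds_basis_closedBall.mem_iff.1 (hcont (hO'.mem_nhds hyO'))
  obtain ⟨r, hrdef⟩ : ∃ r, r = min r' ρ := ⟨_, rfl⟩
  have hr0 : 0 < r := hrdef ▸ lt_min hr' hρ
  have hrρ : r ≤ ρ := hrdef ▸ min_le_right _ _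
  have hc1 : PoCtrl d M g t f (ψ '' Metric.closedBall v r) := by
    refine hctrl.mono hG ?_
    rintro _ ⟨w, hw, rfl⟩
    exact hbr (Metric.closedBall_subset_closedBall (hrdef ▸ min_le_left _ _) hw)
  have hnv : ‖u - v‖ ≤ ρ := by
    rw [Metric.mem_ball, dist_eq_norm, norm_sub_rev] at hv
    exact hv.le
  have hc2 := po_ctrl_step hG hf h0 hp hb3 hnv hr0 hrρ hc1
  have hbr' : Metric.ball u r ⊆ U := (Metric.ball_subset_ball hrρ).trans hbρ
  obtain ⟨O₂, hO₂, hO₂e⟩ := if_image_open hp Metric.isOpen_ball hbr'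
  refine ⟨O₂, hO₂, ?_, hc2.of_inter hG ?_⟩
  · have : ψ u ∈ M ∩ O₂ := hO₂e ▸ mem_image_of_mem ψ (Metric.mem_ball_self hr0)
    exact this.2
  · rw [← hO₂e]
    exact image_mono Metric.ball_subset_closedBall

/-- **Poincare inequality with a potential** on a compact connected manifold. -/
theorem po_main (hG : GsGeo d M g t) (hc : IsCompact M) (hconn : IsPreconnected M)
    (hf : SmoothAlong d M f) (h0 : ∀ x ∈ M, 0 ≤ f x) {x₀ : V} (hx₀ : x₀ ∈ M) (hpos : 0 < f x₀) :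
    ∃ c : ℝ, 0 < c ∧ GsGap d M g t 1 f c := by
  -- the controlled open set and its "exterior"
  obtain ⟨W, hWdef⟩ : ∃ W : Set V, W = ⋃₀ {O | IsOpen O ∧ PoCtrl d M g t f O} := ⟨_, rfl⟩
  obtain ⟨W', hW'def⟩ : ∃ W' : Set V, W' = ⋃₀ {O | IsOpen O ∧ M ∩ O ∩ W = ∅} := ⟨_, rfl⟩
  have hW : IsOpen W := hWdef ▸ isOpen_sUnion fun O hO => hO.1
  have hW' : IsOpen W' := hW'def ▸ isOpen_sUnion fun O hO => hO.1
  have hmemW : ∀ y, y ∈ W ↔ ∃ O, IsOpen O ∧ y ∈ O ∧ PoCtrl d M g t f O := by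
    intro y
    rw [hWdef, mem_sUnion]
    exact ⟨fun ⟨O, ⟨h1, h2⟩, h3⟩ => ⟨O, h1, h3, h2⟩, fun ⟨O, h1, h3, h2⟩ => ⟨O, ⟨h1, h2⟩, h3⟩⟩
  have hcov : M ⊆ W ∪ W' := by
    intro x hx
    by_cases hacc : ∀ O : Set V, IsOpen O → x ∈ O → (M ∩ O ∩ W).Nonempty
    · left
      rw [hmemW]
      refine po_ctrl_closed hG hf h0 hx fun O hO hxO => ?_
      obtain ⟨y, hy, hyW⟩ := hacc O hO hxO
      exact ⟨y, hy, (hmemW y).1 hyW⟩
    · right
      push Not at hacc
      obtain ⟨O, hO, hxO, he⟩ := hacc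
      rw [hW'def]
      exact mem_sUnion.2 ⟨O, ⟨hO, he⟩, hxO⟩
  have hdisj : M ∩ (W ∩ W') = ∅ := by
    rw [eq_empty_iff_forall_notMem]
    rintro y ⟨hyM, hyW, hyW'⟩
    rw [hW'def] at hyW'
    obtain ⟨O, ⟨-, he⟩, hyO⟩ := mem_sUnion.1 hyW'
    exact (eq_empty_iff_forall_notMem.1 he y) ⟨⟨hyM, hyO⟩, hyW⟩
  have hne : (M ∩ W).Nonempty := ⟨x₀, hx₀, (hmemW x₀).2 (po_ctrl_base hG hf h0 hx₀ hpos)⟩
  have hMW : M ⊆ W := by
    intro x hx
    rcases hcov hx with h | h
    · exact h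
    · exfalso
      have := hconn W W' hW hW' hcov hne ⟨x, hx, h⟩
      rw [hdisj] at this
      exact this.ne_empty rfl
  -- compactness
  have hall : PoCtrl d M g t f M := by
    refine hc.induction_on (p := fun A => PoCtrl d M g t f A) po_ctrl_empty
      (fun A B hAB hB => hB.mono hG hAB)
      (fun A B hA hB => hA.union hG hB) fun x hx => ?_
    obtain ⟨O, hO, hxO, hctrl⟩ := (hmemW x).1 (hMW hx)
    exact ⟨O, mem_nhdsWithin_of_mem_nhds (hO.mem_nhds hxO), hctrl⟩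
  obtain ⟨C, hC, h⟩ := hall
  refine ⟨(C + 1)⁻¹, by positivity, fun φ hφ => ?_⟩
  have h1 := h φ hφ
  have h2 : ∫ x in M, φ x * φ x ∂(wvol d M g t) = gsN d M g t φ φ := by
    unfold gsN
    exact setIntegral_eq_integral_of_ae_compl_eq_zero (by
      filter_upwards [gs_ae_mem hG] with x hx hx'
      exact absurd hx hx')
  rw [h2] at h1
  have hQ := po_Q_nonneg hG hf h0 hφ
  rw [inv_mul_le_iff₀ (by positivity)]
  nlinarith

end Claimed.Agent.R314
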