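import Claimed.Agent.R314.B.Po

/-!
# Row 314, block (B), unit PO: the Poincare inequality with a potential, UNIFORM in a family of metrics

`po_main_unif` : `𝒢` a family of metrics on the compact connected `M` whose chart data are uniformly pinched on compact subsets of
chart domains (`PoUFam`).  Then `c ∫ φ² dμ_g ≤ ∫ (|dφ|²_g + f φ²) dμ_g` for all `g ∈ 𝒢` with ONE constant `c > 0`.
`po_unif_segment` : `PoUFam` for the segment `{g - s k | s ∈ [0,s₀]}`.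
Same proof as `po_main`.  Owner: helper209.
-/

set_option autoImplicit false
set_option linter.unusedSectionVars false
open scoped ContDiff Topology ENNReal
open Claims.C0499 Set MeasureTheory Filter

namespace Claimed.Agent.R314

open Claimed.Agent.R315

variable {d : ℕ}
variable {V : Type} [NormedAddCommGroup V] [NormedSpace ℝ V] [FiniteDimensional ℝ V]
  [MeasurableSpace V] [BorelSpace V]
variable {M : Set V} {g : Ten V} {t f φ : V → ℝ} {𝒢 : Set (Ten V)}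

/-- uniform pinching of the chart data of the metrics of the family. -/
def PoUFam (d : ℕ) (M : Set V) (𝒢 : Set (Ten V)) (t : V → ℝ) : Prop :=
  ∀ (ψ : E d → V) (U : Set (E d)), IsParam M ψ U → ∀ K : Set (E d), IsCompact K → K ⊆ U →
    ∃ c : ℝ, 0 < c ∧ ∀ g ∈ 𝒢, ∀ u ∈ K, 1 ≤ c * ctRho g t ψ u ∧ ctRho g t ψ u ≤ c ∧
      ∀ f : E d → ℝ, ‖fderiv ℝ f u‖ ^ 2 ≤ c * (gradSqC (cm g ψ) f u * ctRho g t ψ u)

/-- `∫_A φ² dμ_g ≤ C Q_g(φ)` for all test functions and all metrics of the family. -/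
def PoCtrlU (d : ℕ) (M : Set V) (𝒢 : Set (Ten V)) (t f : V → ℝ) (A : Set V) : Prop :=
  ∃ C : ℝ, 0 ≤ C ∧ ∀ g ∈ 𝒢, ∀ φ : V → ℝ, IsTestOn d M φ →
    ∫ x in A, φ x * φ x ∂(wvol d M g t) ≤ C * gsB d M g t 1 f φ φ

theorem PoCtrlU.mono (hG : ∀ g ∈ 𝒢, GsGeo d M g t) {A B : Set V} (hAB : A ⊆ B)
    (hB : PoCtrlU d M 𝒢 t f B) : PoCtrlU d M 𝒢 t f A := by
  obtain ⟨C, hC, h⟩ := hB
  refine ⟨C, hC, fun g hg φ hφ => le_trans ?_ (h g hg φ hφ)⟩
  exact setIntegral_mono_set (po_N_integrable (hG g hg) hφ).integrableOn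
    (Eventually.of_forall fun x => mul_self_nonneg _) (LE.le.eventuallyLE hAB)

theorem PoCtrlU.of_inter (hG : ∀ g ∈ 𝒢, GsGeo d M g t) {A B : Set V} (hAB : M ∩ A ⊆ B)
    (hB : PoCtrlU d M 𝒢 t f B) : PoCtrlU d M 𝒢 t f A := by
  obtain ⟨C, hC, h⟩ := hB
  refine ⟨C, hC, fun g hg φ hφ => le_trans ?_ (h g hg φ hφ)⟩
  refine setIntegral_mono_set (po_N_integrable (hG g hg) hφ).integrableOn
    (Eventually.of_forall fun x => mul_self_nonneg _) ?_
  filter_upwards [gs_ae_mem (hG g hg)] with x hx hxA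
  exact hAB ⟨hx, hxA⟩

theorem PoCtrlU.union (hG : ∀ g ∈ 𝒢, GsGeo d M g t) {A B : Set V}
    (hA : PoCtrlU d M 𝒢 t f A) (hB : PoCtrlU d M 𝒢 t f B) :
    PoCtrlU d M 𝒢 t f (A ∪ B) := by
  obtain ⟨C, hC, h⟩ := hA
  obtain ⟨C', hC', h'⟩ := hB
  refine ⟨C + C', add_nonneg hC hC', fun g hg φ hφ => ?_⟩
  have hi := po_N_integrable (hG g hg) hφ
  have h1 : ∫ x in A ∪ B, φ x * φ x ∂(wvol d M g t) ≤
      ∫ x, φ x * φ x ∂((wvol d M g t).restrict A + (wvol d M g t).restrict B) :=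
    integral_mono_measure (Measure.restrict_union_le A B)
      (Eventually.of_forall fun x => mul_self_nonneg _)
      (Integrable.add_measure hi.integrableOn hi.integrableOn)
  rw [integral_add_measure hi.integrableOn hi.integrableOn] at h1
  have := h g hg φ hφ
  have := h' g hg φ hφ
  linarith

theorem po_ctrlU_empty : PoCtrlU d M 𝒢 t f ∅ := ⟨0, le_rfl, fun g _ φ _ => by simp⟩

/-- the base point. -/
theorem po_ctrlU_base (hM : IsMfd d M) (hG : ∀ g ∈ 𝒢, GsGeo d M g t) (hf : SmoothAlong d M f)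
    (h0 : ∀ x ∈ M, 0 ≤ f x) {x₀ : V} (hx₀ : x₀ ∈ M) (hpos : 0 < f x₀) :
    ∃ O : Set V, IsOpen O ∧ x₀ ∈ O ∧ PoCtrlU d M 𝒢 t f O := by
  have hc : ContinuousOn f M := if_smoothAlong_continuousOn hM hf
  have h1 : ∀ᶠ y in 𝓝[M] x₀, f x₀ / 2 < f y := (hc x₀ hx₀).eventually (lt_mem_nhds (by linarith))
  obtain ⟨O, hO, hxO, hOM⟩ := mem_nhdsWithin.1 h1
  refine ⟨O, hO, hxO, 2 / f x₀, by positivity, fun g hg φ hφ => ?_⟩
  have hG := hG g hg
  have h2 : ∫ x in O, φ x * φ x ∂(wvol d M g t) ≤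
      ∫ x in O, 2 / f x₀ * (f x * (φ x * φ x)) ∂(wvol d M g t) := by
    refine integral_mono_ae (po_N_integrable hG hφ).integrableOn
      ((po_f_integrable hG hf hφ).integrableOn.const_mul _) ?_
    have hm : ∀ᵐ x ∂((wvol d M g t).restrict O), x ∈ M := ae_restrict_of_ae (gs_ae_mem hG)
    filter_upwards [hm, ae_restrict_mem hO.measurableSet] with x hxM hxO'
    have h3 : f x₀ / 2 < f x := hOM ⟨hxO', hxM⟩
    have h4 : 1 ≤ 2 / f x₀ * f x := by
      rw [div_mul_eq_mul_div, le_div_iff₀ hpos]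
      linarith
    have h5 : 0 ≤ φ x * φ x := mul_self_nonneg _
    calc φ x * φ x = 1 * (φ x * φ x) := (one_mul _).symm
      _ ≤ (2 / f x₀ * f x) * (φ x * φ x) := mul_le_mul_of_nonneg_right h4 h5
      _ = _ := by ring
  rw [integral_const_mul] at h2
  exact h2.trans (mul_le_mul_of_nonneg_left (po_f_le hG hf h0 hφ O) (by positivity))

/-- the chart step: control propagates inside a chart ball. -/
theorem po_ctrlU_step (hG : ∀ g ∈ 𝒢, GsGeo d M g t) (hun : PoUFam d M 𝒢 t)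
    (hf : SmoothAlong d M f) (h0 : ∀ x ∈ M, 0 ≤ f x) {ψ : E d → V} {U : Set (E d)} (hp : IsParam M ψ U) {u v : E d} {ρ r : ℝ}
    (hρ : Metric.closedBall u (3 * ρ) ⊆ U) (hv : ‖u - v‖ ≤ ρ) (hr0 : 0 < r) (hr : r ≤ ρ)
    (hctrl : PoCtrlU d M 𝒢 t f (ψ '' Metric.closedBall v r)) :
    PoCtrlU d M 𝒢 t f (ψ '' Metric.closedBall u r) := by
  obtain ⟨C, hC, hctrl⟩ := hctrl
  obtain ⟨K, hKdef⟩ : ∃ K, K = Metric.closedBall u (3 * ρ) := ⟨_, rfl⟩
  have hK : IsCompact K := hKdef ▸ isCompact_closedBall u (3 * ρ)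
  have hKU : K ⊆ U := hKdef ▸ hρ
  obtain ⟨c, hc, hcmp0⟩ := hun ψ U hp K hK hKU
  have hsub : ∀ x ∈ Metric.closedBall v r, ∀ s ∈ Icc (0 : ℝ) 1, x + s • (u - v) ∈ K := by
    intro x hx s hs
    rw [hKdef, Metric.mem_closedBall, dist_eq_norm]
    rw [Metric.mem_closedBall, dist_eq_norm] at hx
    have e : x + s • (u - v) - u = (x - v) + (s - 1) • (u - v) := by
      rw [sub_smul, one_smul]
      abel
    rw [e]
    have h1 : ‖(s - 1) • (u - v)‖ ≤ ρ := by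
      rw [norm_smul, Real.norm_eq_abs]
      have : |s - 1| ≤ 1 := by
        rw [abs_le]
        constructor <;> linarith [hs.1, hs.2]
      calc |s - 1| * ‖u - v‖ ≤ 1 * ρ := by gcongr
        _ = ρ := one_mul _
    calc ‖(x - v) + (s - 1) • (u - v)‖ ≤ ‖x - v‖ + ‖(s - 1) • (u - v)‖ := norm_add_le _ _
      _ ≤ r + ρ := add_le_add hx h1
      _ ≤ 3 * ρ := by linarith
  have hBvK : Metric.closedBall v r ⊆ K := fun x hx => by simpa using hsub x hx 0 (by simp)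
  have hBuK : Metric.closedBall u r ⊆ K := by
    rw [hKdef]
    exact Metric.closedBall_subset_closedBall (by linarith)
  refine ⟨c * (2 * (c * C) + 2 * ρ ^ 2 * c), by positivity, fun g hg φ hφ => ?_⟩
  have hG := hG g hg
  have hcmp := hcmp0 g hg
  have hctrl := hctrl g hg
  obtain ⟨Q, hQ⟩ : ∃ Q, Q = gsB d M g t 1 f φ φ := ⟨_, rfl⟩
  rw [← hQ]
  have hQ0 : 0 ≤ Q := hQ ▸ po_Q_nonneg hG hf h0 hφ
  obtain ⟨b, hbdef⟩ : ∃ b : E d → ℝ, b = fun w => φ (ψ w) := ⟨_, rfl⟩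
  have hb : ContDiffOn ℝ ∞ b U := hbdef ▸ hφ.1 ψ U hp
  have hbc : ContinuousOn b U := hb.continuousOn
  have hρc : ContinuousOn (ctRho g t ψ) U := (gs_ctRho_smooth hG hp).continuousOn
  have hbb : ContinuousOn (fun w => φ (ψ w) * φ (ψ w) * ctRho g t ψ w) U := by
    have hbc' : ContinuousOn (fun w => φ (ψ w)) U := hbdef ▸ hbc
    exact (hbc'.mul hbc').mul hρc
  have htr := po_translate (if_open hp) hb hK hKU hsub
  rw [add_sub_cancel] at htr
  -- the three comparisons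
  have c1 : ∫ x in ψ '' Metric.closedBall u r, φ x * φ x ∂(wvol d M g t) ≤
      c * ∫ w in Metric.closedBall u r, b w ^ 2 := by
    rw [gs_integral_chart hG hp measurableSet_closedBall (hBuK.trans hKU), ← integral_const_mul]
    refine setIntegral_mono_on ?_ ?_ measurableSet_closedBall fun w hw => ?_
    · exact (hbb.mono (hBuK.trans hKU)).integrableOn_compact (isCompact_closedBall u r)
    · exact (((hbc.pow 2).mono (hBuK.trans hKU)).integrableOn_compact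
        (isCompact_closedBall u r)).const_mul c
    · have h1 := (hcmp w (hBuK hw)).2.1
      rw [hbdef]
      show φ (ψ w) * φ (ψ w) * ctRho g t ψ w ≤ c * φ (ψ w) ^ 2
      nlinarith [mul_self_nonneg (φ (ψ w))]
  have c2 : ∫ w in Metric.closedBall v r, b w ^ 2 ≤ c * (C * Q) := by
    have h1 : ∫ w in Metric.closedBall v r, b w ^ 2 ≤
        c * ∫ x in ψ '' Metric.closedBall v r, φ x * φ x ∂(wvol d M g t) := by
      rw [gs_integral_chart hG hp measurableSet_closedBall (hBvK.trans hKU), ← integral_const_mul]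
      refine setIntegral_mono_on ?_ ?_ measurableSet_closedBall fun w hw => ?_
      · exact ((hbc.pow 2).mono (hBvK.trans hKU)).integrableOn_compact (isCompact_closedBall v r)
      · exact ((hbb.mono (hBvK.trans hKU)).integrableOn_compact
          (isCompact_closedBall v r)).const_mul c
      · have h1 := (hcmp w (hBvK hw)).1
        rw [hbdef]
        show φ (ψ w) ^ 2 ≤ c * (φ (ψ w) * φ (ψ w) * ctRho g t ψ w)
        nlinarith [mul_self_nonneg (φ (ψ w))]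
    exact h1.trans (mul_le_mul_of_nonneg_left (hQ ▸ hctrl φ hφ) hc.le)
  have c3 : ∫ w in K, ‖fderiv ℝ b w‖ ^ 2 ≤ c * Q := by
    have h1 : ∫ w in K, ‖fderiv ℝ b w‖ ^ 2 ≤
        c * ∫ x in ψ '' K, gradSq d M g φ x ∂(wvol d M g t) := by
      rw [gs_integral_chart hG hp hK.measurableSet hKU, ← integral_const_mul]
      have hDc : ContinuousOn (fderiv ℝ b) U :=
        hb.continuousOn_fderiv_of_isOpen (if_open hp) (by norm_num)
      refine setIntegral_mono_on ?_ ?_ hK.measurableSet fun w hw => ?_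
      · exact ((hDc.mono hKU).norm.pow 2).integrableOn_compact hK
      · exact (((((if_gradSq_smoothAlong hG.met hφ.1) ψ U hp).continuousOn.mul hρc).mono
          hKU).integrableOn_compact hK).const_mul c
      · have h1 := (hcmp w hw).2.2 b
        rw [gs_sq_eq hG.met hφ.1 hp (hKU hw), ← hbdef]
        exact h1
    exact h1.trans (mul_le_mul_of_nonneg_left (hQ ▸ po_sq_le hG hf h0 hφ _) hc.le)
  have hn : ‖u - v‖ ^ 2 ≤ ρ ^ 2 := by gcongr
  have hD0 : 0 ≤ ∫ w in K, ‖fderiv ℝ b w‖ ^ 2 := integral_nonneg fun w => by positivity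
  calc ∫ x in ψ '' Metric.closedBall u r, φ x * φ x ∂(wvol d M g t)
      ≤ c * ∫ w in Metric.closedBall u r, b w ^ 2 := c1
    _ ≤ c * (2 * (∫ x in Metric.closedBall v r, b x ^ 2) +
          2 * ‖u - v‖ ^ 2 * ∫ x in K, ‖fderiv ℝ b x‖ ^ 2) := mul_le_mul_of_nonneg_left htr hc.le
    _ ≤ c * (2 * (c * (C * Q)) + 2 * ρ ^ 2 * (c * Q)) := by gcongr
    _ = c * (2 * (c * C) + 2 * ρ ^ 2 * c) * Q := by ring

/-- closedness: a point of `M` all of whose neighbourhoods meet the controlled part of `M` is controlled. -/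
theorem po_ctrlU_closed (hM : IsMfd d M) (hG : ∀ g ∈ 𝒢, GsGeo d M g t) (hun : PoUFam d M 𝒢 t)
    (hf : SmoothAlong d M f) (h0 : ∀ x ∈ M, 0 ≤ f x) {x : V} (hx : x ∈ M)
    (hacc : ∀ O : Set V, IsOpen O → x ∈ O →
      ∃ y ∈ M ∩ O, ∃ O' : Set V, IsOpen O' ∧ y ∈ O' ∧ PoCtrlU d M 𝒢 t f O') :
    ∃ O : Set V, IsOpen O ∧ x ∈ O ∧ PoCtrlU d M 𝒢 t f O := by
  obtain ⟨ψ, U, hp, u, hu, rfl⟩ := hM x hx
  obtain ⟨ρ', hρ', hb⟩ := Metric.nhds_basis_closedBall.mem_iff.1 ((if_open hp).mem_nhds hu)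
  obtain ⟨ρ, hρdef⟩ : ∃ ρ, ρ = ρ' / 3 := ⟨_, rfl⟩
  have hρ : 0 < ρ := by rw [hρdef]; positivity
  have hb3 : Metric.closedBall u (3 * ρ) ⊆ U := by
    rw [hρdef, mul_div_cancel₀ _ (by norm_num : (3 : ℝ) ≠ 0)]
    exact hb
  have hbρ : Metric.ball u ρ ⊆ U :=
    (Metric.ball_subset_closedBall.trans (Metric.closedBall_subset_closedBall (by linarith))).trans hb3
  obtain ⟨O₁, hO₁, hO₁e⟩ := if_image_open hp Metric.isOpen_ball hbρ
  have hxO₁ : ψ u ∈ O₁ := by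
    have : ψ u ∈ M ∩ O₁ := hO₁e ▸ mem_image_of_mem ψ (Metric.mem_ball_self hρ)
    exact this.2
  obtain ⟨y, hy, O', hO', hyO', hctrl⟩ := hacc O₁ hO₁ hxO₁
  rw [← hO₁e] at hy
  obtain ⟨v, hv, rfl⟩ := hy
  have hvU : v ∈ U := hbρ hv
  have hcont : ContinuousAt ψ v := (if_continuousOn hp).continuousAt ((if_open hp).mem_nhds hvU)
  obtain ⟨r', hr', hbr⟩ := Metric.nhds_basis_closedBall.mem_iff.1 (hcont (hO'.mem_nhds hyO'))
  obtain ⟨r, hrdef⟩ : ∃ r, r = min r' ρ := ⟨_, rfl⟩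
  have hr0 : 0 < r := hrdef ▸ lt_min hr' hρ
  have hrρ : r ≤ ρ := hrdef ▸ min_le_right _ _
  have hc1 : PoCtrlU d M 𝒢 t f (ψ '' Metric.closedBall v r) := by
    refine hctrl.mono hG ?_
    rintro _ ⟨w, hw, rfl⟩
    exact hbr (Metric.closedBall_subset_closedBall (hrdef ▸ min_le_left _ _) hw)
  have hnv : ‖u - v‖ ≤ ρ := by
    rw [Metric.mem_ball, dist_eq_norm, norm_sub_rev] at hv
    exact hv.le
  have hc2 := po_ctrlU_step hG hun hf h0 hp hb3 hnv hr0 hrρ hc1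
  have hbr' : Metric.ball u r ⊆ U := (Metric.ball_subset_ball hrρ).trans hbρ
  obtain ⟨O₂, hO₂, hO₂e⟩ := if_image_open hp Metric.isOpen_ball hbr'
  refine ⟨O₂, hO₂, ?_, hc2.of_inter hG ?_⟩
  · have : ψ u ∈ M ∩ O₂ := hO₂e ▸ mem_image_of_mem ψ (Metric.mem_ball_self hr0)
    exact this.2
  · rw [← hO₂e]
    exact image_mono Metric.ball_subset_closedBall

/-- **Poincare inequality with a potential** on a compact connected manifold, uniform in the family. -/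
theorem po_main_unif (hM : IsMfd d M) (hG : ∀ g ∈ 𝒢, GsGeo d M g t) (hun : PoUFam d M 𝒢 t)
    (hc : IsCompact M) (hconn : IsPreconnected M)
    (hf : SmoothAlong d M f) (h0 : ∀ x ∈ M, 0 ≤ f x) {x₀ : V} (hx₀ : x₀ ∈ M) (hpos : 0 < f x₀) :
    ∃ c : ℝ, 0 < c ∧ ∀ g ∈ 𝒢, GsGap d M g t 1 f c := by
  -- the controlled open set and its "exterior"
  obtain ⟨W, hWdef⟩ : ∃ W : Set V, W = ⋃₀ {O | IsOpen O ∧ PoCtrlU d M 𝒢 t f O} := ⟨_, rfl⟩
  obtain ⟨W', hW'def⟩ : ∃ W' : Set V, W' = ⋃₀ {O | IsOpen O ∧ M ∩ O ∩ W = ∅} := ⟨_, rfl⟩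
  have hW : IsOpen W := hWdef ▸ isOpen_sUnion fun O hO => hO.1
  have hW' : IsOpen W' := hW'def ▸ isOpen_sUnion fun O hO => hO.1
  have hmemW : ∀ y, y ∈ W ↔ ∃ O, IsOpen O ∧ y ∈ O ∧ PoCtrlU d M 𝒢 t f O := by
    intro y
    rw [hWdef, mem_sUnion]
    exact ⟨fun ⟨O, ⟨h1, h2⟩, h3⟩ => ⟨O, h1, h3, h2⟩, fun ⟨O, h1, h3, h2⟩ => ⟨O, ⟨h1, h2⟩, h3⟩⟩
  have hcov : M ⊆ W ∪ W' := by
    intro x hx
    by_cases hacc : ∀ O : Set V, IsOpen O → x ∈ O → (M ∩ O ∩ W).Nonempty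
    · left
      rw [hmemW]
      refine po_ctrlU_closed hM hG hun hf h0 hx fun O hO hxO => ?_
      obtain ⟨y, hy, hyW⟩ := hacc O hO hxO
      exact ⟨y, hy, (hmemW y).1 hyW⟩
    · right
      push Not at hacc
      obtain ⟨O, hO, hxO, he⟩ := hacc
      rw [hW'def]
      exact mem_sUnion.2 ⟨O, ⟨hO, he⟩, hxO⟩
  have hdisj : M ∩ (W ∩ W') = ∅ := by
    rw [eq_empty_iff_forall_notMem]
    rintro y ⟨hyM, hyW, hyW'⟩
    rw [hW'def] at hyW'
    obtain ⟨O, ⟨-, he⟩, hyO⟩ := mem_sUnion.1 hyW'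
    exact (eq_empty_iff_forall_notMem.1 he y) ⟨⟨hyM, hyO⟩, hyW⟩
  have hne : (M ∩ W).Nonempty := ⟨x₀, hx₀, (hmemW x₀).2 (po_ctrlU_base hM hG hf h0 hx₀ hpos)⟩
  have hMW : M ⊆ W := by
    intro x hx
    rcases hcov hx with h | h
    · exact h
    · exfalso
      have := hconn W W' hW hW' hcov hne ⟨x, hx, h⟩
      rw [hdisj] at this
      exact this.ne_empty rfl
  -- compactness
  have hall : PoCtrlU d M 𝒢 t f M := by
    refine hc.induction_on (p := fun A => PoCtrlU d M 𝒢 t f A) po_ctrlU_empty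
      (fun A B hAB hB => hB.mono hG hAB)
      (fun A B hA hB => hA.union hG hB) fun x hx => ?_
    obtain ⟨O, hO, hxO, hctrl⟩ := (hmemW x).1 (hMW hx)
    exact ⟨O, mem_nhdsWithin_of_mem_nhds (hO.mem_nhds hxO), hctrl⟩
  obtain ⟨C, hC, h⟩ := hall
  refine ⟨(C + 1)⁻¹, by positivity, fun g hg φ hφ => ?_⟩
  have hG := hG g hg
  have h1 := h g hg φ hφ
  have h2 : ∫ x in M, φ x * φ x ∂(wvol d M g t) = gsN d M g t φ φ := by
    unfold gsN
    exact setIntegral_eq_integral_of_ae_compl_eq_zero (by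
      filter_upwards [gs_ae_mem hG] with x hx hx'
      exact absurd hx hx')
  rw [h2] at h1
  have hQ := po_Q_nonneg hG hf h0 hφ
  rw [inv_mul_le_iff₀ (by positivity)]
  nlinarith

/-! ## uniform pinching on a compact parameter space -/

/-- a continuous field of positive definite matrices on a compact set `T` of a topological space:
determinant and inverse form are pinched. -/
theorem po_pinch {P : Type} [TopologicalSpace P] {T : Set P} (hT : IsCompact T)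
    {A : P → Matrix (Fin d) (Fin d) ℝ} (hA : ∀ i j, ContinuousOn (fun p => A p i j) T)
    (hpos : ∀ p ∈ T, (A p).PosDef) {e : P → ℝ} (he : ContinuousOn e T) :
    ∃ c : ℝ, 0 < c ∧ ∀ p ∈ T, 1 ≤ c * (Real.exp (-e p) * Real.sqrt (A p).det) ∧
      Real.exp (-e p) * Real.sqrt (A p).det ≤ c ∧
      ∀ ξ : E d, ‖ξ‖ ^ 2 ≤ c * ((∑ i, ∑ j, (A p)⁻¹ i j * ξ i * ξ j) *
        (Real.exp (-e p) * Real.sqrt (A p).det)) := by
  have hAm : ContinuousOn A T := continuousOn_pi.2 fun i => continuousOn_pi.2 fun j => hA i j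
  have hdet : ContinuousOn (fun p => (A p).det) T :=
    (Continuous.matrix_det continuous_id).comp_continuousOn hAm
  have hdpos : ∀ p ∈ T, 0 < (A p).det := fun p hp => (hpos p hp).det_pos
  have hadj : ContinuousOn (fun p => (A p).adjugate) T :=
    (Continuous.matrix_adjugate continuous_id).comp_continuousOn hAm
  have hinv : ∀ i j, ContinuousOn (fun p => (A p)⁻¹ i j) T := by
    intro i j
    have h1 : ContinuousOn (fun p => ((A p).det)⁻¹ * (A p).adjugate i j) T :=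
      (hdet.inv₀ fun p hp => (hdpos p hp).ne').mul
        ((continuous_apply j).comp_continuousOn ((continuous_apply i).comp_continuousOn hadj))
    refine h1.congr fun p _ => ?_
    rw [Matrix.inv_def, Ring.inverse_eq_inv']
    rfl
  obtain ⟨ρ, hρdef⟩ : ∃ ρ : P → ℝ, ρ = fun p => Real.exp (-e p) * Real.sqrt (A p).det := ⟨_, rfl⟩
  have hρc : ContinuousOn ρ T := by
    rw [hρdef]
    exact (Real.continuous_exp.comp_continuousOn he.neg).mul
      (Real.continuous_sqrt.comp_continuousOn hdet)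
  have hρpos : ∀ p ∈ T, 0 < ρ p := fun p hp => by
    rw [hρdef]
    exact mul_pos (Real.exp_pos _) (Real.sqrt_pos.2 (hdpos p hp))
  -- the inverse form on `T × sphere`
  obtain ⟨S, hSdef⟩ : ∃ S : Set (P × E d), S = T ×ˢ Metric.sphere (0 : E d) 1 := ⟨_, rfl⟩
  have hS : IsCompact S := hSdef ▸ hT.prod (isCompact_sphere 0 1)
  obtain ⟨q, hqdef⟩ : ∃ q : P × E d → ℝ,
      q = fun p => ∑ i, ∑ j, (A p.1)⁻¹ i j * p.2 i * p.2 j := ⟨_, rfl⟩
  have hq : ContinuousOn q S := by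
    rw [hqdef]
    refine continuousOn_finsetSum _ fun i _ => continuousOn_finsetSum _ fun j _ => ?_
    have h1 : ContinuousOn (fun p : P × E d => (A p.1)⁻¹ i j) S :=
      (hinv i j).comp continuousOn_fst (fun p hp => by rw [hSdef] at hp; exact hp.1)
    have h2 : ∀ i : Fin d, Continuous (fun p : P × E d => p.2 i) := fun i =>
      (EuclideanSpace.proj i : E d →L[ℝ] ℝ).continuous.comp continuous_snd
    exact (h1.mul (h2 i).continuousOn).mul (h2 j).continuousOn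
  have hqpos : ∀ p ∈ S, 0 < q p := by
    rintro ⟨u, ξ⟩ hp
    rw [hSdef] at hp
    obtain ⟨hu, hξ⟩ := hp
    have hne : (fun i => ξ i) ≠ 0 := by
      intro h0
      have h1 : ξ = 0 := by
        ext i
        exact congrFun h0 i
      simp only [h1] at hξ
      simp at hξ
    have h2 := ((hpos u hu).inv).dotProduct_mulVec_pos hne
    simp only [star_trivial] at h2
    have e : q (u, ξ) = (fun i => ξ i) ⬝ᵥ ((A u)⁻¹).mulVec (fun i => ξ i) := by
      rw [hqdef]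
      simp only [dotProduct, Matrix.mulVec, Finset.mul_sum]
      exact Finset.sum_congr rfl fun i _ => Finset.sum_congr rfl fun j _ => by ring
    rw [e]
    exact h2
  obtain ⟨C₃', hC⟩ := hS.exists_bound_of_continuousOn (hq.inv₀ fun p hp => (hqpos p hp).ne')
  obtain ⟨C₃, hC₃⟩ : ∃ C₃, C₃ = max C₃' 0 := ⟨_, rfl⟩
  have h30 : 0 ≤ C₃ := hC₃ ▸ le_max_right _ _
  have h3 : ∀ u ∈ T, ∀ ξ : E d, ‖ξ‖ ^ 2 ≤ C₃ * ∑ i, ∑ j, (A u)⁻¹ i j * ξ i * ξ j := by
    intro u hu ξ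
    by_cases hξ : ξ = 0
    · subst hξ
      simp
    · have hn : 0 < ‖ξ‖ := norm_pos_iff.2 hξ
      have hmem : (u, ‖ξ‖⁻¹ • ξ) ∈ S := by
        rw [hSdef]
        refine ⟨hu, ?_⟩
        rw [mem_sphere_zero_iff_norm, norm_smul, norm_inv, norm_norm, inv_mul_cancel₀ hn.ne']
      have h1 := hC _ hmem
      have h2 := hqpos _ hmem
      rw [Pi.inv_apply, Real.norm_eq_abs, abs_of_pos (inv_pos.2 h2)] at h1
      have h3 : 1 ≤ C₃ * q (u, ‖ξ‖⁻¹ • ξ) := by
        have h4 : 1 ≤ C₃' * q (u, ‖ξ‖⁻¹ • ξ) := by rwa [inv_le_iff_one_le_mul₀ h2] at h1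
        exact h4.trans (mul_le_mul_of_nonneg_right (hC₃ ▸ le_max_left _ _) h2.le)
      have e : q (u, ‖ξ‖⁻¹ • ξ) = (‖ξ‖ ^ 2)⁻¹ * ∑ i, ∑ j, (A u)⁻¹ i j * ξ i * ξ j := by
        rw [hqdef]
        simp only [PiLp.smul_apply, smul_eq_mul, Finset.mul_sum]
        refine Finset.sum_congr rfl fun i _ => Finset.sum_congr rfl fun j _ => ?_
        field_simp
      rw [e] at h3
      have hn2 : 0 < ‖ξ‖ ^ 2 := by positivity
      calc ‖ξ‖ ^ 2 = ‖ξ‖ ^ 2 * 1 := (mul_one _).symm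
        _ ≤ ‖ξ‖ ^ 2 * (C₃ * ((‖ξ‖ ^ 2)⁻¹ * ∑ i, ∑ j, (A u)⁻¹ i j * ξ i * ξ j)) :=
            mul_le_mul_of_nonneg_left h3 hn2.le
        _ = C₃ * ∑ i, ∑ j, (A u)⁻¹ i j * ξ i * ξ j := by
            field_simp
  obtain ⟨C₁, h1⟩ := hT.exists_bound_of_continuousOn (hρc.inv₀ fun u hu => (hρpos u hu).ne')
  obtain ⟨C₂, h2⟩ := hT.exists_bound_of_continuousOn hρc
  refine ⟨|C₁| + |C₂| + C₃ * |C₁| + 1, by positivity, fun u hu => ?_⟩
  have hp : 0 < ρ u := hρpos u hu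
  have a1 : (ρ u)⁻¹ ≤ |C₁| := by
    have := h1 u hu
    rw [Pi.inv_apply, Real.norm_eq_abs, abs_of_pos (inv_pos.2 hp)] at this
    exact this.trans (le_abs_self _)
  have a1' : 1 ≤ |C₁| * ρ u := by rwa [inv_le_iff_one_le_mul₀ hp] at a1
  have a2 : ρ u ≤ |C₂| := by
    have := h2 u hu
    rw [Real.norm_eq_abs, abs_of_pos hp] at this
    exact this.trans (le_abs_self _)
  have b1 := abs_nonneg C₁
  have b2 := abs_nonneg C₂
  have b3 := mul_nonneg h30 b1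
  have eρ : Real.exp (-e u) * Real.sqrt (A u).det = ρ u := by rw [hρdef]
  rw [eρ]
  refine ⟨?_, by linarith, fun ξ => ?_⟩
  · exact a1'.trans (mul_le_mul_of_nonneg_right (by linarith) hp.le)
  · have h4 := h3 u hu ξ
    obtain ⟨Qv, hQv⟩ : ∃ Qv, Qv = ∑ i, ∑ j, (A u)⁻¹ i j * ξ i * ξ j := ⟨_, rfl⟩
    rw [← hQv] at h4 ⊢
    have hq0 : 0 ≤ C₃ * Qv := le_trans (by positivity) h4
    have hq1 : 0 ≤ Qv := by
      by_cases hξ : ξ = 0
      · rw [hQv, hξ]
        simp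
      · have hn : 0 < ‖ξ‖ ^ 2 := by
          have := norm_pos_iff.2 hξ
          positivity
        by_contra hneg
        push Not at hneg
        nlinarith
    calc ‖ξ‖ ^ 2 ≤ C₃ * Qv := h4
      _ = C₃ * Qv * 1 := (mul_one _).symm
      _ ≤ C₃ * Qv * (|C₁| * ρ u) := mul_le_mul_of_nonneg_left a1' hq0
      _ = (C₃ * |C₁|) * (Qv * ρ u) := by ring
      _ ≤ (|C₁| + |C₂| + C₃ * |C₁| + 1) * (Qv * ρ u) :=
          mul_le_mul_of_nonneg_right (by linarith) (mul_nonneg hq1 hp.le)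

theorem po_cm_sub_smul (g k : Ten V) (s : ℝ) (ψ : E d → V) (w : E d) :
    cm (g - s • k) ψ w = cm g ψ w - s • cm k ψ w := by
  ext i j
  rfl

/-- **the segment `g - s k`, `s ∈ [0,s₀]`, is uniformly pinched.** -/
theorem po_unif_segment {k : Ten V} {s₀ : ℝ} (hg : IsTenOn d M g) (hk : IsTenOn d M k)
    (hmet : ∀ s ∈ Icc (0 : ℝ) s₀, IsMetricOn d M (g - s • k)) (ht : SmoothAlong d M t) :
    PoUFam d M {g' | ∃ s ∈ Icc (0 : ℝ) s₀, g' = g - s • k} t := by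
  intro ψ U hp K hK hKU
  have hT : IsCompact (Icc (0 : ℝ) s₀ ×ˢ K) := isCompact_Icc.prod hK
  obtain ⟨c, hc, h⟩ := po_pinch (d := d) hT (A := fun p : ℝ × E d => cm (g - p.1 • k) ψ p.2)
    (e := fun p => t (ψ p.2)) (fun i j => by
      have h1 : ContinuousOn (fun p : ℝ × E d => cm g ψ p.2 i j - p.1 * cm k ψ p.2 i j)
          (Icc (0 : ℝ) s₀ ×ˢ K) := by
        have a1 : ContinuousOn (fun p : ℝ × E d => cm g ψ p.2 i j) (Icc (0 : ℝ) s₀ ×ˢ K) :=
          ((hg ψ U hp i j).continuousOn.mono hKU).comp continuousOn_snd fun p hp => hp.2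
        have a2 : ContinuousOn (fun p : ℝ × E d => cm k ψ p.2 i j) (Icc (0 : ℝ) s₀ ×ˢ K) :=
          ((hk ψ U hp i j).continuousOn.mono hKU).comp continuousOn_snd fun p hp => hp.2
        exact a1.sub (continuousOn_fst.mul a2)
      exact h1)
    (fun p hp' => (hmet p.1 hp'.1 ψ U hp).2 p.2 (hKU hp'.2))
    (((ht ψ U hp).continuousOn.mono hKU).comp continuousOn_snd fun p hp => hp.2)
  refine ⟨c, hc, ?_⟩
  rintro g' ⟨s, hs, rfl⟩ u hu
  obtain ⟨h1, h2, h3⟩ := h (s, u) ⟨hs, hu⟩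
  refine ⟨h1, h2, fun f => ?_⟩
  obtain ⟨ξ, hξn, hξ⟩ := gsc_dual (fderiv ℝ f u)
  have h4 := h3 ξ
  rw [hξn] at h4
  have e : ∑ i, ∑ j, (cm (g - s • k) ψ u)⁻¹ i j * ξ i * ξ j = gradSqC (cm (g - s • k) ψ) f u := by
    unfold gradSqC pdiff
    simp only [hξ]
  rw [← e]
  exact h4

end Claimed.Agent.R314
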