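import Claimed.Agent.R315.Pack008

/-!
# Row 314, block (B), unit VAR, part A: the exact two-metric identity for the scalar curvature

`G`, `G'` two metric matrices on the same chart domain `U` (`rm_Met`), `D^k_{ij} = Γ'^k_{ij} - Γ^k_{ij}` (`varD`), `P = G'⁻¹`,
`Y^i = P^{jk} D^i_{jk} - P^{ik} D^j_{jk}` (`varY`), `Q = P^{jk} (D^i_{ip} D^p_{jk} - D^i_{jp} D^p_{ik})` (`varQ`).

EXIT `var_two_metric`:
`scal(G') = P^{jk} Ric(G)_{jk} + (√det G')⁻¹ ∂_i (√det G' Y^i) - Q`.
(checked numerically with the index conventions of `Def_0499`.)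

Leaves: `var_ric` (difference of the Ricci tensors), `var_pdiff_inv` (`∇' P = 0`), `var_alg` (pure index algebra),
`var_pdiff_Y`, `var_div`, `var_div_sqrt`.
Architect: helper39.
-/

set_option autoImplicit false
open scoped ContDiff Topology
open Set Claims.C0499 Claimed.Agent.R315

namespace Claimed.Agent.R314

variable {d : ℕ}

/-- `Y^i = P^{jk} D^i_{jk} - P^{ik} D^j_{jk}`. -/
def varY (P : Matrix (Fin d) (Fin d) ℝ) (D : Fin d → Fin d → Fin d → ℝ) (i : Fin d) : ℝ :=
  ∑ j, ∑ k, P j k * D i j k - ∑ k, P i k * ∑ j, D j j k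

/-- `Q = P^{jk} (D^i_{ip} D^p_{jk} - D^i_{jp} D^p_{ik})`. -/
def varQ (P : Matrix (Fin d) (Fin d) ℝ) (D : Fin d → Fin d → Fin d → ℝ) : ℝ :=
  ∑ j, ∑ k, P j k * ∑ i, ∑ p, (D i i p * D p j k - D i j p * D p i k)

/-- the mixed term `Γ * D` of the difference of the Ricci tensors. -/
def varX (Γ D : Fin d → Fin d → Fin d → ℝ) (j k : Fin d) : ℝ :=
  ∑ i, ∑ p, (Γ i i p * D p j k + D i i p * Γ p j k - Γ i j p * D p i k - D i j p * Γ p i k)

/-- `D^k_{ij} = Γ'^k_{ij} - Γ^k_{ij}`. -/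
noncomputable def varD (G G' : rm_MF d) (u : E d) (k i j : Fin d) : ℝ :=
  christoffel G' u k i j - christoffel G u k i j

theorem varY_smul (t : ℝ) (P : Matrix (Fin d) (Fin d) ℝ) (D : Fin d → Fin d → Fin d → ℝ)
    (i : Fin d) : varY P (fun k i j => t * D k i j) i = t * varY P D i := by
  unfold varY
  simp only [mul_sub, Finset.mul_sum]
  congr 1
  · exact Finset.sum_congr rfl fun j _ => Finset.sum_congr rfl fun k _ => by ring
  · exact Finset.sum_congr rfl fun j _ => Finset.sum_congr rfl fun k _ => by ring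

theorem varQ_smul (t : ℝ) (P : Matrix (Fin d) (Fin d) ℝ) (D : Fin d → Fin d → Fin d → ℝ) :
    varQ P (fun k i j => t * D k i j) = t ^ 2 * varQ P D := by
  unfold varQ
  simp only [Finset.mul_sum]
  exact Finset.sum_congr rfl fun j _ => Finset.sum_congr rfl fun k _ =>
    Finset.sum_congr rfl fun i _ => Finset.sum_congr rfl fun p _ => by ring

variable {G G' : rm_MF d} {U : Set (E d)} {u : E d}

theorem var_D_smooth (hG : rm_Met G U) (hG' : rm_Met G' U) (k i j : Fin d) :
    ContDiffOn ℝ ∞ (fun w => varD G G' w k i j) U :=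
  (rm_christoffel_smooth hG' k i j).sub (rm_christoffel_smooth hG k i j)

theorem var_D_symm (hG : rm_Met G U) (hG' : rm_Met G' U) (hu : u ∈ U) (k i j : Fin d) :
    varD G G' u k i j = varD G G' u k j i := by
  unfold varD
  rw [rm_christoffel_symm hG hu, rm_christoffel_symm hG' hu]

theorem var_Y_smooth (hG : rm_Met G U) (hG' : rm_Met G' U) (i : Fin d) :
    ContDiffOn ℝ ∞ (fun w => varY (G' w)⁻¹ (varD G G' w) i) U := by
  unfold varY
  refine ContDiffOn.sub ?_ ?_
  · exact ContDiffOn.sum fun j _ => ContDiffOn.sum fun k _ =>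
      (rm_inv_smooth hG' j k).mul (var_D_smooth hG hG' i j k)
  · exact ContDiffOn.sum fun k _ => (rm_inv_smooth hG' i k).mul
      (ContDiffOn.sum fun j _ => var_D_smooth hG hG' j j k)

/-- LEAF VAR-A1.  Difference of the Ricci tensors.  Unfold `ricciCoord`, `riemannCoord`; `Γ = Γ' - D`;
`rm_pdiff_sub`; then `ring` under the sums. -/
theorem var_ric (hG : rm_Met G U) (hG' : rm_Met G' U) (hu : u ∈ U) (j k : Fin d) :
    ricciCoord G' u j k = ricciCoord G u j k
      + ∑ i, (pdiff (fun w => varD G G' w i j k) i u - pdiff (fun w => varD G G' w i i k) j u)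
      + varX (christoffel G' u) (varD G G' u) j k
      - ∑ i, ∑ p, (varD G G' u i i p * varD G G' u p j k - varD G G' u i j p * varD G G' u p i k) := by
  have e : ∀ a b c l : Fin d, pdiff (fun w => varD G G' w a b c) l u =
      pdiff (fun w => christoffel G' w a b c) l u - pdiff (fun w => christoffel G w a b c) l u := by
    intro a b c l
    unfold varD
    exact rm_pdiff_sub (rm_da hG'.opn (rm_christoffel_smooth hG' a b c) hu) (rm_da hG.opn (rm_christoffel_smooth hG a b c) hu)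
  unfold ricciCoord riemannCoord varX
  simp only [e]
  rw [← Finset.sum_add_distrib, ← Finset.sum_add_distrib, ← Finset.sum_sub_distrib]
  refine Finset.sum_congr rfl fun i _ => ?_
  have key : ∑ p : Fin d, (christoffel G' u i i p * christoffel G' u p j k - christoffel G' u i j p * christoffel G' u p i k)
      = ∑ p : Fin d, (christoffel G u i i p * christoffel G u p j k - christoffel G u i j p * christoffel G u p i k)
        + ∑ p : Fin d, (christoffel G' u i i p * varD G G' u p j k + varD G G' u i i p * christoffel G' u p j k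
            - christoffel G' u i j p * varD G G' u p i k - varD G G' u i j p * christoffel G' u p i k)
        - ∑ p : Fin d, (varD G G' u i i p * varD G G' u p j k - varD G G' u i j p * varD G G' u p i k) := by
    rw [← Finset.sum_add_distrib, ← Finset.sum_sub_distrib]
    refine Finset.sum_congr rfl fun p _ => ?_
    unfold varD
    ring
  rw [key]
  ring

/-- LEAF VAR-A2.  `∂_i G^{jk} = - Γ^j_{ip} G^{pk} - Γ^k_{ip} G^{jp}`.  From `rm_pdiff_invM`, `rm_c1_add`, `rm_christoffel_eq`. -/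
theorem var_pdiff_inv (hG : rm_Met G U) (hu : u ∈ U) (j k i : Fin d) :
    pdiff (fun w => (G w)⁻¹ j k) i u =
      - ∑ p, (christoffel G u j i p * (G u)⁻¹ p k + christoffel G u k i p * (G u)⁻¹ j p) := by
  rw [rm_pdiff_invM hG hu]
  congr 1
  simp only [rm_christoffel_eq, ← rm_c1_add hG hu, Finset.sum_add_distrib, Finset.sum_mul, mul_add, add_mul]
  rw [add_comm]
  congr 1
  · rw [Finset.sum_comm]
  · refine Finset.sum_congr rfl fun c _ => Finset.sum_congr rfl fun e _ => ?_
    rw [rm_inv_symm hG hu e k]; ring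

theorem var_s12 (F : Fin d → Fin d → Fin d → Fin d → ℝ) :
    ∑ a, ∑ b, ∑ c, ∑ e, F a b c e = ∑ b, ∑ a, ∑ c, ∑ e, F a b c e := Finset.sum_comm

theorem var_s23 (F : Fin d → Fin d → Fin d → Fin d → ℝ) :
    ∑ a, ∑ b, ∑ c, ∑ e, F a b c e = ∑ a, ∑ c, ∑ b, ∑ e, F a b c e :=
  Finset.sum_congr rfl fun _ _ => Finset.sum_comm

theorem var_s34 (F : Fin d → Fin d → Fin d → Fin d → ℝ) :
    ∑ a, ∑ b, ∑ c, ∑ e, F a b c e = ∑ a, ∑ b, ∑ e, ∑ c, F a b c e :=
  Finset.sum_congr rfl fun _ _ => Finset.sum_congr rfl fun _ _ => Finset.sum_comm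

/-- reversal of the order of summation. -/
theorem var_rev4 (F : Fin d → Fin d → Fin d → Fin d → ℝ) :
    ∑ a, ∑ b, ∑ c, ∑ e, F a b c e = ∑ e, ∑ c, ∑ b, ∑ a, F a b c e := by
  rw [rm_sum4_swap F, var_s12 (fun c e a b => F a b c e), var_s34 (fun e c a b => F a b c e)]

theorem var_perm4 (F : Fin d → Fin d → Fin d → Fin d → ℝ) :
    ∑ a, ∑ b, ∑ c, ∑ e, F a b c e = ∑ b, ∑ e, ∑ a, ∑ c, F a b c e := by
  rw [var_s12 F, var_s34 (fun b a c e => F a b c e), var_s23 (fun b a e c => F a b c e)]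

/-- LEAF VAR-A3.  Pure index algebra. -/
theorem var_alg (P : Matrix (Fin d) (Fin d) ℝ) (hP : ∀ i j, P i j = P j i)
    (Γ D : Fin d → Fin d → Fin d → ℝ) (hΓ : ∀ k i j, Γ k i j = Γ k j i)
    (hD : ∀ k i j, D k i j = D k j i) :
    ∑ i, (∑ j, ∑ k, (- ∑ p, (Γ j i p * P p k + Γ k i p * P j p)) * D i j k
        - ∑ k, (- ∑ p, (Γ i i p * P p k + Γ k i p * P i p)) * ∑ j, D j j k)
      + ∑ i, (∑ a, Γ a i a) * varY P D i
      = ∑ j, ∑ k, P j k * varX Γ D j k := by
  obtain ⟨T, hT⟩ : ∃ T : Fin d → ℝ, T = fun k => ∑ j, D j j k := ⟨_, rfl⟩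
  obtain ⟨γ, hγ⟩ : ∃ γ : Fin d → ℝ, γ = fun i => ∑ a, Γ a i a := ⟨_, rfl⟩
  have hT' : ∀ k, ∑ j, D j j k = T k := fun k => by rw [hT]
  have hγ' : ∀ i, ∑ a, Γ a i a = γ i := fun i => by rw [hγ]
  have hγ'' : ∀ i, ∑ a, Γ a a i = γ i := fun i => by
    rw [hγ]; exact Finset.sum_congr rfl fun a _ => hΓ a a i
  -- the six sums on the left
  have e1 : ∀ i, ∑ j, ∑ k, (- ∑ p, (Γ j i p * P p k + Γ k i p * P j p)) * D i j k
      = - (∑ j, ∑ k, ∑ p, Γ j i p * P p k * D i j k) - ∑ j, ∑ k, ∑ p, Γ k i p * P j p * D i j k := by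
    intro i
    rw [← Finset.sum_neg_distrib, ← Finset.sum_sub_distrib]
    refine Finset.sum_congr rfl fun j _ => ?_
    rw [← Finset.sum_neg_distrib, ← Finset.sum_sub_distrib]
    refine Finset.sum_congr rfl fun k _ => ?_
    rw [neg_mul, Finset.sum_mul, ← Finset.sum_neg_distrib, ← Finset.sum_neg_distrib,
      ← Finset.sum_sub_distrib]
    exact Finset.sum_congr rfl fun p _ => by ring
  have e2 : ∀ i, ∑ k, (- ∑ p, (Γ i i p * P p k + Γ k i p * P i p)) * T k
      = - (∑ k, ∑ p, Γ i i p * P p k * T k) - ∑ k, ∑ p, Γ k i p * P i p * T k := by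
    intro i
    rw [← Finset.sum_neg_distrib, ← Finset.sum_sub_distrib]
    refine Finset.sum_congr rfl fun k _ => ?_
    rw [neg_mul, Finset.sum_mul, ← Finset.sum_neg_distrib, ← Finset.sum_neg_distrib,
      ← Finset.sum_sub_distrib]
    exact Finset.sum_congr rfl fun p _ => by ring
  -- the four sums on the right
  have r0 : ∀ j k, P j k * varX Γ D j k = P j k * (∑ i, ∑ p, Γ i i p * D p j k)
      + P j k * (∑ i, ∑ p, D i i p * Γ p j k) - P j k * (∑ i, ∑ p, Γ i j p * D p i k)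
      - P j k * (∑ i, ∑ p, D i j p * Γ p i k) := by
    intro j k
    unfold varX
    rw [← mul_add, ← mul_sub, ← mul_sub]
    congr 1
    rw [← Finset.sum_add_distrib, ← Finset.sum_sub_distrib, ← Finset.sum_sub_distrib]
    refine Finset.sum_congr rfl fun i _ => ?_
    rw [← Finset.sum_add_distrib, ← Finset.sum_sub_distrib, ← Finset.sum_sub_distrib]
  -- matching
  have m1 : ∑ i, ∑ j, ∑ k, ∑ p, Γ j i p * P p k * D i j k
      = ∑ j, ∑ k, P j k * (∑ i, ∑ p, Γ i j p * D p i k) := by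
    rw [var_rev4 (fun i j k p => Γ j i p * P p k * D i j k)]
    refine Finset.sum_congr rfl fun p _ => Finset.sum_congr rfl fun k _ => ?_
    rw [Finset.mul_sum]
    refine Finset.sum_congr rfl fun j _ => ?_
    rw [Finset.mul_sum]
    refine Finset.sum_congr rfl fun i _ => ?_
    rw [hΓ j i p]; ring
  have m2 : ∑ i, ∑ j, ∑ k, ∑ p, Γ k i p * P j p * D i j k
      = ∑ j, ∑ k, P j k * (∑ i, ∑ p, D i j p * Γ p i k) := by
    rw [var_perm4 (fun i j k p => Γ k i p * P j p * D i j k)]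
    refine Finset.sum_congr rfl fun j _ => Finset.sum_congr rfl fun p _ => ?_
    rw [Finset.mul_sum]
    refine Finset.sum_congr rfl fun i _ => ?_
    rw [Finset.mul_sum]
    refine Finset.sum_congr rfl fun k _ => ?_
    ring
  have m3 : ∑ i, ∑ k, ∑ p, Γ i i p * P p k * T k = ∑ i, γ i * ∑ k, P i k * T k := by
    calc ∑ i, ∑ k, ∑ p, Γ i i p * P p k * T k = ∑ i, ∑ p, ∑ k, Γ i i p * P p k * T k :=
          Finset.sum_congr rfl fun i _ => Finset.sum_comm
      _ = ∑ p, ∑ i, ∑ k, Γ i i p * P p k * T k := Finset.sum_comm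
      _ = ∑ p, γ p * ∑ k, P p k * T k := by
          refine Finset.sum_congr rfl fun p _ => ?_
          rw [← hγ'' p, Finset.sum_mul]
          refine Finset.sum_congr rfl fun i _ => ?_
          rw [Finset.mul_sum]
          exact Finset.sum_congr rfl fun k _ => by ring
  have m4 : ∑ i, ∑ k, ∑ p, Γ k i p * P i p * T k
      = ∑ j, ∑ k, P j k * (∑ i, ∑ p, D i i p * Γ p j k) := by
    calc ∑ i, ∑ k, ∑ p, Γ k i p * P i p * T k = ∑ i, ∑ p, ∑ k, Γ k i p * P i p * T k :=
          Finset.sum_congr rfl fun i _ => Finset.sum_comm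
      _ = ∑ j, ∑ k, P j k * (∑ i, ∑ p, D i i p * Γ p j k) := by
          refine Finset.sum_congr rfl fun i _ => Finset.sum_congr rfl fun p _ => ?_
          rw [Finset.sum_comm, Finset.mul_sum]
          refine Finset.sum_congr rfl fun k _ => ?_
          rw [← hT' k, Finset.mul_sum, Finset.mul_sum]
          exact Finset.sum_congr rfl fun j _ => by ring
  have m5 : ∑ i, γ i * ∑ j, ∑ k, P j k * D i j k
      = ∑ j, ∑ k, P j k * (∑ i, ∑ p, Γ i i p * D p j k) := by
    have : ∀ j k, P j k * (∑ i, ∑ p, Γ i i p * D p j k) = ∑ p, γ p * (P j k * D p j k) := by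
      intro j k
      rw [Finset.sum_comm, Finset.mul_sum]
      refine Finset.sum_congr rfl fun p _ => ?_
      rw [← hγ'' p, Finset.sum_mul, Finset.mul_sum]
      exact Finset.sum_congr rfl fun i _ => by ring
    simp only [this]
    calc ∑ i, γ i * ∑ j, ∑ k, P j k * D i j k = ∑ i, ∑ j, ∑ k, γ i * (P j k * D i j k) := by
          refine Finset.sum_congr rfl fun i _ => ?_
          rw [Finset.mul_sum]
          exact Finset.sum_congr rfl fun j _ => by rw [Finset.mul_sum]
      _ = ∑ j, ∑ i, ∑ k, γ i * (P j k * D i j k) := Finset.sum_comm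
      _ = ∑ j, ∑ k, ∑ i, γ i * (P j k * D i j k) :=
          Finset.sum_congr rfl fun j _ => Finset.sum_comm
  have y0 : ∀ i, (∑ a, Γ a i a) * varY P D i
      = γ i * (∑ j, ∑ k, P j k * D i j k) - γ i * ∑ k, P i k * T k := by
    intro i
    unfold varY
    simp only [hT', hγ']
    ring
  simp only [hT']
  simp only [e1, e2, y0, r0]
  simp only [Finset.sum_sub_distrib, Finset.sum_add_distrib, Finset.sum_neg_distrib]
  rw [m1, m2, m3, m4, m5]
  ring

/-- LEAF VAR-A4.  Product rule for `Y`. -/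
theorem var_pdiff_Y (hG : rm_Met G U) (hG' : rm_Met G' U) (hu : u ∈ U) (i : Fin d) :
    pdiff (fun w => varY (G' w)⁻¹ (varD G G' w) i) i u =
      ∑ j, ∑ k, (pdiff (fun w => (G' w)⁻¹ j k) i u * varD G G' u i j k
          + (G' u)⁻¹ j k * pdiff (fun w => varD G G' w i j k) i u)
        - ∑ k, (pdiff (fun w => (G' w)⁻¹ i k) i u * ∑ j, varD G G' u j j k
          + (G' u)⁻¹ i k * ∑ j, pdiff (fun w => varD G G' w j j k) i u) := by
  have hP : ∀ a b, DifferentiableAt ℝ (fun w => (G' w)⁻¹ a b) u := fun a b => rm_da hG'.opn (rm_inv_smooth hG' a b) hu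
  have hD : ∀ a b c, DifferentiableAt ℝ (fun w => varD G G' w a b c) u := fun a b c => rm_da hG.opn (var_D_smooth hG hG' a b c) hu
  have hS : ∀ k, DifferentiableAt ℝ (fun w => ∑ j, varD G G' w j j k) u := fun k => rm_da_sum _ fun j _ => hD j j k
  unfold varY
  rw [rm_pdiff_sub (rm_da_sum _ fun j _ => rm_da_sum _ fun k _ => rm_da_mul (hP j k) (hD i j k))
    (rm_da_sum _ fun k _ => rm_da_mul (hP i k) (hS k))]
  congr 1
  · rw [rm_pdiff_sum _ fun j _ => rm_da_sum _ fun k _ => rm_da_mul (hP j k) (hD i j k)]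
    refine Finset.sum_congr rfl fun j _ => ?_
    rw [rm_pdiff_sum _ fun k _ => rm_da_mul (hP j k) (hD i j k)]
    refine Finset.sum_congr rfl fun k _ => ?_
    rw [rm_pdiff_mul (hP j k) (hD i j k)]
  · rw [rm_pdiff_sum _ fun k _ => rm_da_mul (hP i k) (hS k)]
    refine Finset.sum_congr rfl fun k _ => ?_
    rw [rm_pdiff_mul (hP i k) (hS k), rm_pdiff_sum _ fun j _ => hD j j k]

/-- LEAF VAR-A5.  The `G'`-divergence of `Y`. -/
theorem var_div (hG : rm_Met G U) (hG' : rm_Met G' U) (hu : u ∈ U) :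
    ∑ i, pdiff (fun w => varY (G' w)⁻¹ (varD G G' w) i) i u
        + ∑ i, (∑ a, christoffel G' u a i a) * varY (G' u)⁻¹ (varD G G' u) i
      = ∑ j, ∑ k, (G' u)⁻¹ j k *
          (∑ i, (pdiff (fun w => varD G G' w i j k) i u - pdiff (fun w => varD G G' w i i k) j u)
            + varX (christoffel G' u) (varD G G' u) j k) := by
  have halg := var_alg (G' u)⁻¹ (rm_inv_symm hG' hu) (christoffel G' u) (varD G G' u)
    (rm_christoffel_symm hG' hu) (var_D_symm hG hG' hu)
  have e1 : ∀ i, pdiff (fun w => varY (G' w)⁻¹ (varD G G' w) i) i u =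
      (∑ j, ∑ k, (- ∑ p, (christoffel G' u j i p * (G' u)⁻¹ p k
            + christoffel G' u k i p * (G' u)⁻¹ j p)) * varD G G' u i j k
        - ∑ k, (- ∑ p, (christoffel G' u i i p * (G' u)⁻¹ p k
            + christoffel G' u k i p * (G' u)⁻¹ i p)) * ∑ j, varD G G' u j j k)
      + (∑ j, ∑ k, (G' u)⁻¹ j k * pdiff (fun w => varD G G' w i j k) i u
        - ∑ k, (G' u)⁻¹ i k * ∑ j, pdiff (fun w => varD G G' w j j k) i u) := by
    intro i
    rw [var_pdiff_Y hG hG' hu i]
    simp only [var_pdiff_inv hG' hu, Finset.sum_add_distrib]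
    ring
  have e2 : ∑ i, ∑ j, ∑ k, (G' u)⁻¹ j k * pdiff (fun w => varD G G' w i j k) i u
      = ∑ j, ∑ k, ∑ i, (G' u)⁻¹ j k * pdiff (fun w => varD G G' w i j k) i u := by
    rw [Finset.sum_comm]
    exact Finset.sum_congr rfl fun j _ => Finset.sum_comm
  simp only [e1]
  rw [Finset.sum_add_distrib, add_right_comm, halg, Finset.sum_sub_distrib, e2,
    ← Finset.sum_sub_distrib, ← Finset.sum_add_distrib]
  refine Finset.sum_congr rfl fun j _ => ?_
  rw [← Finset.sum_sub_distrib, ← Finset.sum_add_distrib]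
  refine Finset.sum_congr rfl fun k _ => ?_
  rw [Finset.sum_sub_distrib, ← Finset.mul_sum]
  ring

/-- LEAF VAR-A6.  Divergence with the density `√det`. -/
theorem var_div_sqrt (hG : rm_Met G U) (hu : u ∈ U) {Y : Fin d → E d → ℝ}
    (hY : ∀ i, ContDiffOn ℝ ∞ (Y i) U) :
    (Real.sqrt (G u).det)⁻¹ * ∑ i, pdiff (fun w => Real.sqrt (G w).det * Y i w) i u
      = ∑ i, pdiff (Y i) i u + ∑ i, (∑ a, christoffel G u a i a) * Y i u := by
  have h0 : Real.sqrt (G u).det ≠ 0 := (Real.sqrt_pos.2 (rm_det_pos hG hu)).ne'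
  rw [Finset.mul_sum, ← Finset.sum_add_distrib]
  refine Finset.sum_congr rfl fun i _ => ?_
  rw [rm_pdiff_mul (rm_da hG.opn (rm_sqrtdet_smooth hG) hu) (rm_da hG.opn (hY i) hu),
    rm_pdiff_sqrtdet hG hu, rm_christoffel_trace hG hu]
  field_simp
  ring

/-- **EXIT of part A**: the two-metric identity. -/
theorem var_two_metric (hG : rm_Met G U) (hG' : rm_Met G' U) (hu : u ∈ U) :
    scalarCoord G' u = ∑ j, ∑ k, (G' u)⁻¹ j k * ricciCoord G u j k
      + (Real.sqrt (G' u).det)⁻¹ *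
          ∑ i, pdiff (fun w => Real.sqrt (G' w).det * varY (G' w)⁻¹ (varD G G' w) i) i u
      - varQ (G' u)⁻¹ (varD G G' u) := by
  rw [var_div_sqrt hG' hu (Y := fun i w => varY (G' w)⁻¹ (varD G G' w) i) (var_Y_smooth hG hG'),
    var_div hG hG' hu]
  unfold scalarCoord varQ
  rw [← Finset.sum_add_distrib, ← Finset.sum_sub_distrib]
  refine Finset.sum_congr rfl fun j _ => ?_
  rw [← Finset.sum_add_distrib, ← Finset.sum_sub_distrib]
  refine Finset.sum_congr rfl fun k _ => ?_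
  rw [var_ric hG hG' hu]
  ring

end Claimed.Agent.R314
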