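import Claimed.Agent.R314.B.VarA

/-!
# Row 314, block (B), unit VAR, part B: the family `G_t = G + t H` in one chart

`G` a metric matrix on `U`, `H` a smooth symmetric matrix field on `U` which vanishes off the compact set `K ⊆ U` (`VarDat`).
`G_t = varG G H t`, `P = G_t⁻¹`.
* `var_D_eq` : `Γ(G_t) - Γ(G) = t B_t`, `B_t^k_{ij} = P^{kl} E_{ijl}`, `E_{ijl} = [ij,l]_H - H_{lb} Γ^b_{ij}` (no derivative in `t`).
* `var_inv_expand` : `P = G⁻¹ - t G⁻¹ H G⁻¹ + t² P H G⁻¹ H G⁻¹`.
* `var_pinch`, `var_met` : `G/2 ≤ G_t ≤ 2G` for `|t| ≤ t0`, `G_t` is a metric matrix.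
* `var_expand` : `P^{jk} Ric_{jk} - Q - |Y|²_{G_t} = scal G - t L + t² Rem_t`, `L = tr(G⁻¹ H G⁻¹ Ric)`.
* `var_rem_bd` : `|Rem_t| ≤ C` on `[-t0,t0] × U` (joint continuity + compactness; `Rem_t = 0` off `K`).
* `var_young`.
EXIT `var_chart`.
Architect: helper39.
-/

set_option autoImplicit false
open scoped ContDiff Topology
open Set Claims.C0499 Claimed.Agent.R315

namespace Claimed.Agent.R314

variable {d : ℕ}

/-- the perturbed metric matrix `G + t H`. -/
def varG (G H : rm_MF d) (t : ℝ) : rm_MF d := fun u => G u + t • H u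

/-- standing hypotheses in the chart. -/
structure VarDat (G H : rm_MF d) (U K : Set (E d)) : Prop where
  met : rm_Met G U
  smooth : ∀ i j, ContDiffOn ℝ ∞ (fun u => H u i j) U
  symm : ∀ u ∈ U, ∀ i j, H u i j = H u j i
  cpt : IsCompact K
  sub : K ⊆ U
  zero : ∀ u ∈ U, u ∉ K → H u = 0

/-- `E_{ijl} = [ij,l]_H - H_{lb} Γ^b_{ij}` (`= ½(∇_i H_{jl} + ∇_j H_{il} - ∇_l H_{ij})`). -/
noncomputable def varE (G H : rm_MF d) (u : E d) (i j l : Fin d) : ℝ :=
  rm_c1 H u i j l - ∑ b, H u l b * christoffel G u b i j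

/-- `B_t^k_{ij} = G_t^{kl} E_{ijl}`. -/
noncomputable def varB (G H : rm_MF d) (t : ℝ) (u : E d) (k i j : Fin d) : ℝ :=
  ∑ l, (varG G H t u)⁻¹ k l * varE G H u i j l

/-- `L = tr(G⁻¹ H G⁻¹ Ric)`. -/
noncomputable def varL (G H : rm_MF d) (u : E d) : ℝ :=
  ∑ j, ∑ k, ((G u)⁻¹ * H u * (G u)⁻¹) j k * ricciCoord G u j k

/-- the remainder of second order. -/
noncomputable def varRem (G H : rm_MF d) (t : ℝ) (u : E d) : ℝ :=
  ∑ j, ∑ k, ((varG G H t u)⁻¹ * H u * (G u)⁻¹ * H u * (G u)⁻¹) j k * ricciCoord G u j k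
    - varQ (varG G H t u)⁻¹ (varB G H t u)
    - ∑ i, ∑ j, varG G H t u i j * varY (varG G H t u)⁻¹ (varB G H t u) i *
        varY (varG G H t u)⁻¹ (varB G H t u) j

variable {G H : rm_MF d} {U K : Set (E d)} {u : E d} {t : ℝ}

/-- LEAF VAR-B1.  `c1 (G + tH) = c1 G + t c1 H` (`rm_pdiff_add`, `rm_pdiff_const_mul`), `rm_christoffel_eq` for `G_t`,
`rm_c1_eq` for `G`: `c1 G_{ijl} = ∑_b G_{lb} Γ^b_{ij} = ∑_b (G_t)_{lb} Γ^b_{ij} - t ∑_b H_{lb} Γ^b_{ij}`, `rm_inv_mul` for `G_t`. -/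
theorem var_D_eq (h : VarDat G H U K) (ht : rm_Met (varG G H t) U) (hu : u ∈ U) (k i j : Fin d) :
    varD G (varG G H t) u k i j = t * varB G H t u k i j := by
  have hd : ∀ a b, DifferentiableAt ℝ (fun w => G w a b) u := fun a b => rm_da h.met.opn (h.met.smooth a b) hu
  have hd' : ∀ a b, DifferentiableAt ℝ (fun w => H w a b) u := fun a b => rm_da h.met.opn (h.smooth a b) hu
  have e : ∀ a b c, pdiff (fun w => varG G H t w a b) c u
      = pdiff (fun w => G w a b) c u + t * pdiff (fun w => H w a b) c u := by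
    intro a b c
    have e0 : (fun w => varG G H t w a b) = fun w => G w a b + t * H w a b := by
      funext w
      simp [varG]
    rw [e0, rm_pdiff_add (hd a b) ((hd' a b).const_mul t), rm_pdiff_const_mul t (hd' a b)]
  have hc1 : ∀ l, rm_c1 (varG G H t) u i j l = rm_c1 G u i j l + t * rm_c1 H u i j l := by
    intro l
    unfold rm_c1
    rw [e, e, e]
    ring
  have hG1 : ∀ l, rm_c1 G u i j l = ∑ b, varG G H t u l b * christoffel G u b i j
      - t * ∑ b, H u l b * christoffel G u b i j := by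
    intro l
    rw [rm_c1_eq h.met hu, Finset.mul_sum, ← Finset.sum_sub_distrib]
    refine Finset.sum_congr rfl fun b _ => ?_
    simp only [varG, Matrix.add_apply, Matrix.smul_apply, smul_eq_mul]
    ring
  have hδ : ∑ l, (varG G H t u)⁻¹ k l * ∑ b, varG G H t u l b * christoffel G u b i j = christoffel G u k i j := by
    simp only [Finset.mul_sum]
    rw [Finset.sum_comm]
    have e1 : ∀ b, ∑ l, (varG G H t u)⁻¹ k l * (varG G H t u l b * christoffel G u b i j)
        = (if k = b then 1 else 0) * christoffel G u b i j := by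
      intro b
      rw [← rm_inv_mul ht hu k b, Finset.sum_mul]
      exact Finset.sum_congr rfl fun l _ => by ring
    simp only [e1]
    simp
  unfold varD varB varE
  rw [rm_christoffel_eq (varG G H t)]
  have e2 : ∑ l, (varG G H t u)⁻¹ k l * rm_c1 (varG G H t) u i j l
      = ∑ l, (varG G H t u)⁻¹ k l * ∑ b, varG G H t u l b * christoffel G u b i j
        + t * ∑ l, (varG G H t u)⁻¹ k l * (rm_c1 H u i j l - ∑ b, H u l b * christoffel G u b i j) := by
    rw [Finset.mul_sum, ← Finset.sum_add_distrib]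
    refine Finset.sum_congr rfl fun l _ => ?_
    rw [hc1, hG1]
    ring
  rw [e2, hδ]
  ring

/-- LEAF VAR-B2.  Matrix algebra: `P (A + tH) = 1` gives `P = A⁻¹ - t P H A⁻¹`; iterate once. -/
theorem var_inv_expand {A H : Matrix (Fin d) (Fin d) ℝ} {t : ℝ} (hA : A.det ≠ 0)
    (hA' : (A + t • H).det ≠ 0) :
    (A + t • H)⁻¹ = A⁻¹ - t • (A⁻¹ * H * A⁻¹) + t ^ 2 • ((A + t • H)⁻¹ * H * A⁻¹ * H * A⁻¹) := by
  have hAu : IsUnit A.det := isUnit_iff_ne_zero.2 hA
  have hPu : IsUnit (A + t • H).det := isUnit_iff_ne_zero.2 hA'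
  set P := (A + t • H)⁻¹ with hP
  have h1 : P * (A + t • H) = 1 := Matrix.nonsing_inv_mul _ hPu
  have h2 : A * A⁻¹ = 1 := Matrix.mul_nonsing_inv _ hAu
  -- `P = A⁻¹ - t P H A⁻¹`
  have h3 : P = A⁻¹ - t • (P * H * A⁻¹) := by
    have e : P * (A + t • H) * A⁻¹ = A⁻¹ := by rw [h1, one_mul]
    have e2 : P * (A + t • H) * A⁻¹ = P * (A * A⁻¹) + t • (P * H * A⁻¹) := by
      rw [mul_add, add_mul, mul_assoc, Matrix.mul_smul, Matrix.smul_mul]
    rw [h2, mul_one] at e2
    rw [eq_sub_iff_add_eq]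
    exact (e.symm.trans e2).symm
  calc P = A⁻¹ - t • (P * H * A⁻¹) := h3
    _ = A⁻¹ - t • ((A⁻¹ - t • (P * H * A⁻¹)) * H * A⁻¹) := by
      rw [← h3]
      exact h3
    _ = _ := by
      rw [sub_mul, sub_mul, smul_sub, Matrix.smul_mul, Matrix.smul_mul, smul_smul, pow_two]
      abel

theorem var_psd_of_bil {M : Matrix (Fin d) (Fin d) ℝ} (hs : ∀ i j, M i j = M j i) (h : ∀ X : E d, 0 ≤ if_bil M X X) :
    M.PosSemidef := by
  refine Matrix.PosSemidef.of_dotProduct_mulVec_nonneg ?_ fun x => ?_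
  · rw [Matrix.IsHermitian, Matrix.conjTranspose_eq_transpose_of_trivial]
    ext i j
    rw [Matrix.transpose_apply, hs]
  · have := h (WithLp.toLp 2 x)
    rw [if_bil_eq_dot] at this
    rw [star_trivial]
    exact this

theorem var_bil_lin (A B : Matrix (Fin d) (Fin d) ℝ) (a b : ℝ) (X : E d) :
    if_bil (a • A + b • B) X X = a * if_bil A X X + b * if_bil B X X := by
  simp only [if_bil_apply, Matrix.add_apply, Matrix.smul_apply, smul_eq_mul, Finset.mul_sum, ← Finset.sum_add_distrib]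
  exact Finset.sum_congr rfl fun i _ => Finset.sum_congr rfl fun j _ => by ring

/-- LEAF VAR-B3.  `rm_bd_chart` on `K`: `|H(X,X)| ≤ C G(X,X)`; off `K` `H = 0`; `t0 = 1 / (2 C + 1)`. -/
theorem var_pinch (h : VarDat G H U K) : ∃ t0 : ℝ, 0 < t0 ∧ ∀ t, |t| ≤ t0 → ∀ u ∈ U,
    (varG G H t u - (1 / 2 : ℝ) • G u).PosSemidef ∧ ((2 : ℝ) • G u - varG G H t u).PosSemidef := by
  obtain ⟨C, hC0, hC⟩ := rm_bd_chart h.met (fun i j => (h.smooth i j).continuousOn) h.cpt h.sub
  have hpos : (0 : ℝ) < 2 * C + 1 := by linarith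
  refine ⟨1 / (2 * C + 1), by positivity, fun t ht u hu => ?_⟩
  have hG0 : ∀ X : E d, 0 ≤ if_bil (G u) X X := fun X => if_bil_nonneg (h.met.pos u hu).posSemidef X
  have htC : |t| * C ≤ 1 / 2 := by
    calc |t| * C ≤ 1 / (2 * C + 1) * C := mul_le_mul_of_nonneg_right ht hC0
      _ ≤ 1 / 2 := by
        rw [div_mul_eq_mul_div, one_mul, div_le_iff₀ hpos]
        linarith
  have key : ∀ X : E d, |t * if_bil (H u) X X| ≤ 1 / 2 * if_bil (G u) X X := by
    intro X
    by_cases huK : u ∈ K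
    · rw [abs_mul]
      calc |t| * |if_bil (H u) X X| ≤ |t| * (C * if_bil (G u) X X) := mul_le_mul_of_nonneg_left (hC u huK X) (abs_nonneg t)
        _ = |t| * C * if_bil (G u) X X := by ring
        _ ≤ 1 / 2 * if_bil (G u) X X := mul_le_mul_of_nonneg_right htC (hG0 X)
    · rw [h.zero u hu huK]
      have : if_bil (0 : Matrix (Fin d) (Fin d) ℝ) X X = 0 := by simp [if_bil_apply]
      rw [this, mul_zero, abs_zero]
      exact mul_nonneg (by norm_num) (hG0 X)
  have e1 : varG G H t u - (1 / 2 : ℝ) • G u = (1 / 2 : ℝ) • G u + t • H u := by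
    ext i j
    simp only [varG, Matrix.sub_apply, Matrix.add_apply, Matrix.smul_apply, smul_eq_mul]
    ring
  have e2 : (2 : ℝ) • G u - varG G H t u = (1 : ℝ) • G u + (-t) • H u := by
    ext i j
    simp only [varG, Matrix.sub_apply, Matrix.add_apply, Matrix.smul_apply, smul_eq_mul]
    ring
  rw [e1, e2]
  constructor
  · refine var_psd_of_bil (fun i j => ?_) fun X => ?_
    · simp only [Matrix.add_apply, Matrix.smul_apply, smul_eq_mul]
      rw [rm_symm h.met hu i j, h.symm u hu i j]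
    · rw [var_bil_lin]
      have := (abs_le.1 (key X)).1
      linarith
  · refine var_psd_of_bil (fun i j => ?_) fun X => ?_
    · simp only [Matrix.add_apply, Matrix.smul_apply, smul_eq_mul]
      rw [rm_symm h.met hu i j, h.symm u hu i j]
    · rw [var_bil_lin]
      have := (abs_le.1 (key X)).2
      have := hG0 X
      linarith

/-- LEAF VAR-B4. -/
theorem var_met (h : VarDat G H U K)
    (hp : ∀ u ∈ U, (varG G H t u - (1 / 2 : ℝ) • G u).PosSemidef) : rm_Met (varG G H t) U := by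
  refine ⟨h.met.opn, fun i j => ?_, fun u hu => ?_⟩
  · have e0 : (fun w => varG G H t w i j) = fun w => G w i j + t * H w i j := by
      funext w
      simp [varG]
    rw [e0]
    exact (h.met.smooth i j).add (contDiffOn_const.mul (h.smooth i j))
  · have e : varG G H t u = (varG G H t u - (1 / 2 : ℝ) • G u) + (1 / 2 : ℝ) • G u := by abel
    rw [e]
    exact Matrix.PosDef.posSemidef_add (hp u hu) ((h.met.pos u hu).smul (by norm_num : (0 : ℝ) < 1 / 2))

/-- LEAF VAR-B5.  `H = 0` near `u` (the set `U \ K` is open), so `rm_c1 H u = 0`. -/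
theorem var_E_zero (h : VarDat G H U K) (hu : u ∈ U) (huK : u ∉ K) (i j l : Fin d) :
    varE G H u i j l = 0 := by
  have hopen : IsOpen (U \ K) := h.met.opn.sdiff h.cpt.isClosed
  have hmem : U \ K ∈ 𝓝 u := hopen.mem_nhds ⟨hu, huK⟩
  have hz : ∀ a b c : Fin d, pdiff (fun w => H w a b) c u = 0 := by
    intro a b c
    have e : (fun w => H w a b) =ᶠ[𝓝 u] fun _ => (0 : ℝ) := by
      filter_upwards [hmem] with w hw
      rw [h.zero w hw.1 hw.2]
      rfl
    rw [rm_pdiff_congr e, rm_pdiff_const]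
  unfold varE rm_c1
  rw [hz, hz, hz, h.zero u hu huK]
  simp

theorem var_E_smooth (h : VarDat G H U K) (i j l : Fin d) :
    ContDiffOn ℝ ∞ (fun u => varE G H u i j l) U := by
  unfold varE rm_c1
  refine ContDiffOn.sub ?_ ?_
  · exact contDiffOn_const.mul (((rm_pdiff_smooth h.met.opn (h.smooth j l) i).add
      (rm_pdiff_smooth h.met.opn (h.smooth i l) j)).sub (rm_pdiff_smooth h.met.opn (h.smooth i j) l))
  · exact ContDiffOn.sum fun b _ => (h.smooth l b).mul (rm_christoffel_smooth h.met b i j)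

/-- LEAF VAR-B6.  Joint continuity of the inverse (`Matrix.inv_def`, `Ring.inverse`, continuity of `det`, `adjugate`). -/
theorem var_inv_cont (h : VarDat G H U K) {t0 : ℝ} (hm : ∀ t, |t| ≤ t0 → rm_Met (varG G H t) U)
    (a b : Fin d) :
    ContinuousOn (fun p : ℝ × E d => (varG G H p.1 p.2)⁻¹ a b) (Icc (-t0) t0 ×ˢ U) := by
  have hsnd : MapsTo (fun p : ℝ × E d => p.2) (Icc (-t0) t0 ×ˢ U) U := fun p hp => hp.2
  have hX : ContinuousOn (fun p : ℝ × E d => varG G H p.1 p.2) (Icc (-t0) t0 ×ˢ U) := by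
    refine continuousOn_pi.2 fun i => continuousOn_pi.2 fun j => ?_
    have h1 : ContinuousOn (fun p : ℝ × E d => G p.2 i j) (Icc (-t0) t0 ×ˢ U) :=
      (h.met.smooth i j).continuousOn.comp continuous_snd.continuousOn hsnd
    have h2 : ContinuousOn (fun p : ℝ × E d => H p.2 i j) (Icc (-t0) t0 ×ˢ U) :=
      (h.smooth i j).continuousOn.comp continuous_snd.continuousOn hsnd
    exact h1.add (continuous_fst.continuousOn.mul h2)
  have hdet : ContinuousOn (fun p : ℝ × E d => (varG G H p.1 p.2).det) (Icc (-t0) t0 ×ˢ U) :=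
    (Continuous.matrix_det continuous_id).comp_continuousOn hX
  have hadj : ContinuousOn (fun p : ℝ × E d => (varG G H p.1 p.2).adjugate a b) (Icc (-t0) t0 ×ˢ U) :=
    ((continuous_apply b).comp ((continuous_apply a).comp
      (Continuous.matrix_adjugate continuous_id))).comp_continuousOn hX
  have hne : ∀ p ∈ Icc (-t0) t0 ×ˢ U, (varG G H p.1 p.2).det ≠ 0 := by
    intro p hp
    exact ((hm p.1 (abs_le.2 hp.1)).pos p.2 hp.2).det_pos.ne'
  refine ((hdet.inv₀ hne).mul hadj).congr fun p _ => ?_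
  show (varG G H p.1 p.2)⁻¹ a b = _
  rw [Matrix.inv_def, Ring.inverse_eq_inv', Matrix.smul_apply, smul_eq_mul]
  rfl

theorem var_rc_mul {X : Type*} [TopologicalSpace X] {S : Set X} {A B : X → Matrix (Fin d) (Fin d) ℝ}
    (hA : ∀ i j, ContinuousOn (fun x => A x i j) S) (hB : ∀ i j, ContinuousOn (fun x => B x i j) S) (i j : Fin d) :
    ContinuousOn (fun x => (A x * B x) i j) S := by
  simp only [Matrix.mul_apply]
  exact continuousOn_finsetSum _ fun k _ => (hA i k).mul (hB k j)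

theorem var_rc_Y {X : Type*} [TopologicalSpace X] {S : Set X} {P : X → Matrix (Fin d) (Fin d) ℝ}
    {D : X → Fin d → Fin d → Fin d → ℝ}
    (hP : ∀ i j, ContinuousOn (fun x => P x i j) S) (hD : ∀ k i j, ContinuousOn (fun x => D x k i j) S) (i : Fin d) :
    ContinuousOn (fun x => varY (P x) (D x) i) S := by
  unfold varY
  refine ContinuousOn.sub ?_ ?_
  · exact continuousOn_finsetSum _ fun j _ => continuousOn_finsetSum _ fun k _ => (hP j k).mul (hD i j k)
  · exact continuousOn_finsetSum _ fun k _ => (hP i k).mul (continuousOn_finsetSum _ fun j _ => hD j j k)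

theorem var_rc_Q {X : Type*} [TopologicalSpace X] {S : Set X} {P : X → Matrix (Fin d) (Fin d) ℝ}
    {D : X → Fin d → Fin d → Fin d → ℝ}
    (hP : ∀ i j, ContinuousOn (fun x => P x i j) S) (hD : ∀ k i j, ContinuousOn (fun x => D x k i j) S) :
    ContinuousOn (fun x => varQ (P x) (D x)) S := by
  unfold varQ
  exact continuousOn_finsetSum _ fun j _ => continuousOn_finsetSum _ fun k _ => (hP j k).mul
    (continuousOn_finsetSum _ fun i _ => continuousOn_finsetSum _ fun p _ =>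
      ((hD i i p).mul (hD p j k)).sub ((hD i j p).mul (hD p i k)))

theorem var_rc_snd {f : E d → ℝ} (hf : ContinuousOn f U) (T : Set ℝ) :
    ContinuousOn (fun p : ℝ × E d => f p.2) (T ×ˢ U) :=
  hf.comp continuousOn_snd fun _ hp => hp.2

/-- LEAF VAR-B7.  `varRem` is a polynomial in jointly continuous functions. -/
theorem var_rem_cont (h : VarDat G H U K) {t0 : ℝ} (hm : ∀ t, |t| ≤ t0 → rm_Met (varG G H t) U) :
    ContinuousOn (fun p : ℝ × E d => varRem G H p.1 p.2) (Icc (-t0) t0 ×ˢ U) := by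
  have hP := var_inv_cont h hm
  have hH : ∀ i j, ContinuousOn (fun p : ℝ × E d => H p.2 i j) (Icc (-t0) t0 ×ˢ U) := fun i j =>
    var_rc_snd (h.smooth i j).continuousOn _
  have hG : ∀ i j, ContinuousOn (fun p : ℝ × E d => G p.2 i j) (Icc (-t0) t0 ×ˢ U) := fun i j =>
    var_rc_snd (h.met.smooth i j).continuousOn _
  have hGi : ∀ i j, ContinuousOn (fun p : ℝ × E d => (G p.2)⁻¹ i j) (Icc (-t0) t0 ×ˢ U) := fun i j =>
    var_rc_snd (rm_inv_smooth h.met i j).continuousOn _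
  have hR : ∀ i j, ContinuousOn (fun p : ℝ × E d => ricciCoord G p.2 i j) (Icc (-t0) t0 ×ˢ U) := fun i j =>
    var_rc_snd (rm_ricci_smooth h.met i j).continuousOn _
  have hE : ∀ i j l, ContinuousOn (fun p : ℝ × E d => varE G H p.2 i j l) (Icc (-t0) t0 ×ˢ U) := fun i j l =>
    var_rc_snd (var_E_smooth h i j l).continuousOn _
  have hGt : ∀ i j, ContinuousOn (fun p : ℝ × E d => varG G H p.1 p.2 i j) (Icc (-t0) t0 ×ˢ U) := fun i j => by
    have e : (fun p : ℝ × E d => varG G H p.1 p.2 i j) = fun p => G p.2 i j + p.1 * H p.2 i j := by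
      funext p
      simp [varG]
    rw [e]
    exact (hG i j).add (continuousOn_fst.mul (hH i j))
  have hB : ∀ k i j, ContinuousOn (fun p : ℝ × E d => varB G H p.1 p.2 k i j) (Icc (-t0) t0 ×ˢ U) := fun k i j => by
    unfold varB
    exact continuousOn_finsetSum _ fun l _ => (hP k l).mul (hE i j l)
  have hY := var_rc_Y hP hB
  unfold varRem
  refine ContinuousOn.sub (ContinuousOn.sub ?_ (var_rc_Q hP hB)) ?_
  · exact continuousOn_finsetSum _ fun j _ => continuousOn_finsetSum _ fun k _ =>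
      (var_rc_mul (var_rc_mul (var_rc_mul (var_rc_mul hP hH) hGi) hH) hGi j k).mul (hR j k)
  · exact continuousOn_finsetSum _ fun i _ => continuousOn_finsetSum _ fun j _ => ((hGt i j).mul (hY i)).mul (hY j)

theorem var_rem_zero (h : VarDat G H U K) (hu : u ∈ U) (huK : u ∉ K) : varRem G H t u = 0 := by
  have hH : H u = 0 := h.zero u hu huK
  have hB : varB G H t u = fun _ _ _ => 0 := by
    funext k i j
    unfold varB
    simp [var_E_zero h hu huK]
  unfold varRem
  rw [hB, hH]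
  simp [varQ, varY]

/-- LEAF VAR-B8. -/
theorem var_rem_bd (h : VarDat G H U K) {t0 : ℝ} (hm : ∀ t, |t| ≤ t0 → rm_Met (varG G H t) U) :
    ∃ C : ℝ, 0 ≤ C ∧ ∀ t, |t| ≤ t0 → ∀ u ∈ U, |varRem G H t u| ≤ C := by
  have hc : IsCompact (Icc (-t0) t0 ×ˢ K) := isCompact_Icc.prod h.cpt
  have hcont : ContinuousOn (fun p : ℝ × E d => varRem G H p.1 p.2) (Icc (-t0) t0 ×ˢ K) :=
    (var_rem_cont h hm).mono (prod_mono_right h.sub)
  obtain ⟨C, hC⟩ := hc.exists_bound_of_continuousOn hcont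
  refine ⟨max C 0, le_max_right _ _, fun t ht u hu => ?_⟩
  by_cases huK : u ∈ K
  · have := hC (t, u) ⟨abs_le.1 ht, huK⟩
    rw [Real.norm_eq_abs] at this
    exact this.trans (le_max_left _ _)
  · rw [var_rem_zero h hu huK, abs_zero]
    exact le_max_right _ _

/-- LEAF VAR-B9.  `var_D_eq`, `varY_smul`, `varQ_smul`, `var_inv_expand`. -/
theorem var_expand (h : VarDat G H U K) (ht : rm_Met (varG G H t) U) (hu : u ∈ U) :
    ∑ j, ∑ k, (varG G H t u)⁻¹ j k * ricciCoord G u j k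
        - varQ (varG G H t u)⁻¹ (varD G (varG G H t) u)
        - ∑ i, ∑ j, varG G H t u i j * varY (varG G H t u)⁻¹ (varD G (varG G H t) u) i *
            varY (varG G H t u)⁻¹ (varD G (varG G H t) u) j
      = scalarCoord G u - t * varL G H u + t ^ 2 * varRem G H t u := by
  have hD : varD G (varG G H t) u = fun k i j => t * varB G H t u k i j := by
    funext k i j
    exact var_D_eq h ht hu k i j
  have hP : ∀ j k, (varG G H t u)⁻¹ j k = (G u)⁻¹ j k - t * ((G u)⁻¹ * H u * (G u)⁻¹) j k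
      + t ^ 2 * ((varG G H t u)⁻¹ * H u * (G u)⁻¹ * H u * (G u)⁻¹) j k := by
    intro j k
    have h1 := var_inv_expand (A := G u) (H := H u) (t := t) (rm_det_ne h.met u hu)
      (rm_det_ne ht u hu)
    have h2 := congrFun (congrFun h1 j) k
    simpa [varG, Matrix.add_apply, Matrix.sub_apply, Matrix.smul_apply] using h2
  have hS : ∑ j, ∑ k, (varG G H t u)⁻¹ j k * ricciCoord G u j k
      = scalarCoord G u - t * varL G H u
        + t ^ 2 * ∑ j, ∑ k, ((varG G H t u)⁻¹ * H u * (G u)⁻¹ * H u * (G u)⁻¹) j k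
            * ricciCoord G u j k := by
    unfold scalarCoord varL
    simp only [Finset.mul_sum]
    rw [← Finset.sum_sub_distrib, ← Finset.sum_add_distrib]
    refine Finset.sum_congr rfl fun j _ => ?_
    rw [← Finset.sum_sub_distrib, ← Finset.sum_add_distrib]
    refine Finset.sum_congr rfl fun k _ => ?_
    conv_lhs => rw [hP j k]
    ring
  have hYY : ∑ i, ∑ j, varG G H t u i j * (t * varY (varG G H t u)⁻¹ (varB G H t u) i) *
        (t * varY (varG G H t u)⁻¹ (varB G H t u) j)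
      = t ^ 2 * ∑ i, ∑ j, varG G H t u i j * varY (varG G H t u)⁻¹ (varB G H t u) i *
        varY (varG G H t u)⁻¹ (varB G H t u) j := by
    simp only [Finset.mul_sum]
    exact Finset.sum_congr rfl fun i _ => Finset.sum_congr rfl fun j _ => by ring
  rw [hD]
  simp only [varY_smul, varQ_smul]
  rw [hS, hYY]
  unfold varRem
  ring

/-- LEAF VAR-B10.  `0 ≤ (c y - A⁻¹ ξ)ᵀ A (c y - A⁻¹ ξ)`. -/
theorem var_young {A : Matrix (Fin d) (Fin d) ℝ} (hA : A.PosDef) (y ξ : Fin d → ℝ) (c : ℝ) :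
    2 * c * ∑ i, y i * ξ i ≤
      ∑ i, ∑ j, A⁻¹ i j * ξ i * ξ j + c ^ 2 * ∑ i, ∑ j, A i j * y i * y j := by
  have hAu : IsUnit A.det := isUnit_iff_ne_zero.2 hA.det_pos.ne'
  have hT : A.transpose = A := by
    have := hA.isHermitian
    rwa [Matrix.IsHermitian, Matrix.conjTranspose_eq_transpose_of_trivial] at this
  have q : ∀ (B : Matrix (Fin d) (Fin d) ℝ) (a b : Fin d → ℝ), ∑ i, ∑ j, B i j * a i * b j = a ⬝ᵥ (B.mulVec b) := by
    intro B a b
    simp only [dotProduct, Matrix.mulVec, Finset.mul_sum]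
    refine Finset.sum_congr rfl fun i _ => Finset.sum_congr rfl fun j _ => by ring
  set w : Fin d → ℝ := c • y - A⁻¹.mulVec ξ with hw
  have h0 : 0 ≤ w ⬝ᵥ (A.mulVec w) := by
    have := hA.posSemidef.dotProduct_mulVec_nonneg w
    simpa using this
  have e1 : A.mulVec w = c • A.mulVec y - ξ := by
    rw [hw, Matrix.mulVec_sub, Matrix.mulVec_smul, Matrix.mulVec_mulVec, Matrix.mul_nonsing_inv _ hAu,
      Matrix.one_mulVec]
  have e2 : (A⁻¹.mulVec ξ) ⬝ᵥ (A.mulVec y) = ξ ⬝ᵥ y := by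
    rw [Matrix.dotProduct_mulVec, ← Matrix.mulVec_transpose, hT, Matrix.mulVec_mulVec,
      Matrix.mul_nonsing_inv _ hAu, Matrix.one_mulVec]
  have e3 : w ⬝ᵥ (A.mulVec w) = c ^ 2 * (y ⬝ᵥ A.mulVec y) - 2 * c * (y ⬝ᵥ ξ) + ξ ⬝ᵥ (A⁻¹.mulVec ξ) := by
    rw [e1, hw]
    simp only [sub_dotProduct, dotProduct_sub, smul_dotProduct, dotProduct_smul, smul_eq_mul, e2]
    rw [dotProduct_comm (A⁻¹.mulVec ξ) ξ, dotProduct_comm ξ y]
    ring
  rw [q, q]
  have e4 : ∑ i, y i * ξ i = y ⬝ᵥ ξ := rfl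
  rw [e4]
  linarith

/-- LEAF VAR-B11.  The pointwise inequality for a fixed metric `G' = G_t`; `Z_i = √det G' Y^i F²`.
From `var_two_metric`, `rm_pdiff_mul`, `var_young` (`c = F u`, `ξ_i = ∂_i F`, `y = Y`). -/
theorem var_pointwise {G G' : rm_MF d} (hG : rm_Met G U) (hG' : rm_Met G' U) {F : E d → ℝ}
    (hF : ContDiffOn ℝ ∞ F U) (hu : u ∈ U) :
    (3 * gradSqC G' F u + (∑ j, ∑ k, (G' u)⁻¹ j k * ricciCoord G u j k
          - varQ (G' u)⁻¹ (varD G G' u)
          - ∑ i, ∑ j, G' u i j * varY (G' u)⁻¹ (varD G G' u) i * varY (G' u)⁻¹ (varD G G' u) j)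
            * F u ^ 2) * Real.sqrt (G' u).det
        + ∑ i, pdiff (fun w => Real.sqrt (G' w).det * varY (G' w)⁻¹ (varD G G' w) i * F w ^ 2) i u
      ≤ (4 * gradSqC G' F u + scalarCoord G' u * F u ^ 2) * Real.sqrt (G' u).det := by
  have hs : 0 < Real.sqrt (G' u).det := Real.sqrt_pos.2 (rm_det_pos hG' hu)
  have hsY : ∀ i, DifferentiableAt ℝ
      (fun w => Real.sqrt (G' w).det * varY (G' w)⁻¹ (varD G G' w) i) u := fun i =>
    rm_da hG'.opn ((rm_sqrtdet_smooth hG').mul (var_Y_smooth hG hG' i)) hu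
  have hFd : DifferentiableAt ℝ F u := rm_da hG'.opn hF hu
  have hF2 : ∀ i, pdiff (fun w => F w ^ 2) i u = 2 * F u * pdiff F i u := by
    intro i
    have h1 : (fun w => F w ^ 2) = fun w => F w * F w := by
      funext w; ring
    rw [h1, rm_pdiff_mul hFd hFd]
    ring
  have hF2d : DifferentiableAt ℝ (fun w => F w ^ 2) u := hFd.pow 2
  have hZ : ∑ i, pdiff (fun w => Real.sqrt (G' w).det * varY (G' w)⁻¹ (varD G G' w) i * F w ^ 2) i u
      = (∑ i, pdiff (fun w => Real.sqrt (G' w).det * varY (G' w)⁻¹ (varD G G' w) i) i u) * F u ^ 2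
        + Real.sqrt (G' u).det *
          (2 * F u * ∑ i, varY (G' u)⁻¹ (varD G G' u) i * pdiff F i u) := by
    rw [Finset.sum_mul, Finset.mul_sum, Finset.mul_sum, ← Finset.sum_add_distrib]
    refine Finset.sum_congr rfl fun i _ => ?_
    rw [rm_pdiff_mul (hsY i) hF2d, hF2 i]
    ring
  have hy := var_young (hG'.pos u hu) (fun i => varY (G' u)⁻¹ (varD G G' u) i)
    (fun i => pdiff F i u) (F u)
  have hg : gradSqC G' F u = ∑ i, ∑ j, (G' u)⁻¹ i j * pdiff F i u * pdiff F j u := rfl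
  rw [hZ, var_two_metric hG hG' hu, hg]
  set S := ∑ i, pdiff (fun w => Real.sqrt (G' w).det * varY (G' w)⁻¹ (varD G G' w) i) i u with hS
  set s := Real.sqrt (G' u).det with hsdef
  have hss : s⁻¹ * S * F u ^ 2 * s = S * F u ^ 2 := by
    field_simp
  have hmul := mul_le_mul_of_nonneg_left hy hs.le
  nlinarith [hmul, hss]

/-- **EXIT of part B**. -/
theorem var_chart (h : VarDat G H U K) : ∃ C t0 : ℝ, 0 ≤ C ∧ 0 < t0 ∧ ∀ t, |t| ≤ t0 →
    rm_Met (varG G H t) U ∧
    (∀ u ∈ U, (varG G H t u - (1 / 2 : ℝ) • G u).PosSemidef ∧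
      ((2 : ℝ) • G u - varG G H t u).PosSemidef) ∧
    ∀ F : E d → ℝ, ContDiffOn ℝ ∞ F U → ∃ Z : Fin d → E d → ℝ,
      (∀ i, ContDiffOn ℝ ∞ (Z i) U) ∧ (∀ i, ∀ u ∈ U, u ∉ K → Z i u = 0) ∧
      ∀ u ∈ U, (3 * gradSqC (varG G H t) F u
            + (scalarCoord G u - t * varL G H u - C * t ^ 2) * F u ^ 2)
              * Real.sqrt (varG G H t u).det + ∑ i, pdiff (Z i) i u
          ≤ (4 * gradSqC (varG G H t) F u + scalarCoord (varG G H t) u * F u ^ 2)
              * Real.sqrt (varG G H t u).det := by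
  obtain ⟨t0, ht0, hpin⟩ := var_pinch h
  have hm : ∀ t, |t| ≤ t0 → rm_Met (varG G H t) U :=
    fun t ht => var_met h fun u hu => (hpin t ht u hu).1
  obtain ⟨C, hC, hbd⟩ := var_rem_bd h hm
  refine ⟨C, t0, hC, ht0, fun t ht => ⟨hm t ht, hpin t ht, fun F hF => ?_⟩⟩
  refine ⟨fun i w => Real.sqrt (varG G H t w).det *
    varY (varG G H t w)⁻¹ (varD G (varG G H t) w) i * F w ^ 2, ?_, ?_, ?_⟩
  · intro i
    exact ((rm_sqrtdet_smooth (hm t ht)).mul (var_Y_smooth h.met (hm t ht) i)).mul (hF.pow 2)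
  · intro i u hu huK
    have h0 : varD G (varG G H t) u = fun _ _ _ => 0 := by
      funext k a b
      rw [var_D_eq h (hm t ht) hu]
      unfold varB
      simp [var_E_zero h hu huK]
    simp [h0, varY]
  · intro u hu
    have h1 := var_pointwise h.met (hm t ht) hF hu
    rw [var_expand h (hm t ht) hu] at h1
    refine le_trans ?_ h1
    have hρ : 0 ≤ Real.sqrt (varG G H t u).det := Real.sqrt_nonneg _
    have h2 : -C ≤ varRem G H t u := (abs_le.1 (hbd t ht u hu)).1
    have h3 : (scalarCoord G u - t * varL G H u - C * t ^ 2) * F u ^ 2 ≤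
        (scalarCoord G u - t * varL G H u + t ^ 2 * varRem G H t u) * F u ^ 2 := by
      refine mul_le_mul_of_nonneg_right ?_ (sq_nonneg _)
      nlinarith [sq_nonneg t, mul_nonneg (sq_nonneg t) (sub_nonneg.2 h2)]
    have h4 := mul_le_mul_of_nonneg_right (add_le_add_left h3 (3 * gradSqC (varG G H t) F u)) hρ
    linarith

end Claimed.Agent.R314
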